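import Crest.Agent.N222.F.Meas
import Crest.Agent.N222.B.Defs

/-!
# Row 222, framework: graphs
(SKELETON: fill in place, statements frozen; add lemmas freely)

`N := M.graph u hu` is an `Imm d (Option ι) X` with `N.Sm = M.Sm`, `N.x = M.gx u`,
`N.pre = M.gS u`, `N.mu = M.gmu u`: every lemma of `F/*` applies to graphs.
-/

set_option autoImplicit false
set_option linter.unusedSectionVars false
open MeasureTheory Set Filter Topology Function
open scoped ContDiff InnerProductSpace RealInnerProductSpace ENNReal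

noncomputable section

namespace Crest.Agent.N222

variable {d : ℕ} {ι : Type} [Fintype ι] [DecidableEq ι] {X : Type} [TopologicalSpace X]

/-! ### `up`, `down` -/

@[simp] theorem up_none (t : ℝ) (y : E ι) : up t y none = t := rfl
@[simp] theorem up_some (t : ℝ) (y : E ι) (a : ι) : up t y (some a) = y a := rfl
@[simp] theorem down_apply (y : E (Option ι)) (a : ι) : down y a = y (some a) := rfl
@[simp] theorem down_up (t : ℝ) (y : E ι) : down (up t y) = y := rfl

theorem up_down (y : E (Option ι)) : up (y none) (down y) = y := by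
  ext c; cases c <;> rfl

theorem up_sub (t t' : ℝ) (y y' : E ι) : up t y - up t' y' = up (t - t') (y - y') := by
  ext c; cases c <;> rfl

theorem up_add (t t' : ℝ) (y y' : E ι) : up t y + up t' y' = up (t + t') (y + y') := by
  ext c; cases c <;> rfl

theorem smul_up (c t : ℝ) (y : E ι) : c • up t y = up (c * t) (c • y) := by
  ext c; cases c <;> rfl

theorem down_sub (y y' : E (Option ι)) : down (y - y') = down y - down y' := rfl

theorem inner_up (t t' : ℝ) (y y' : E ι) : ⟪up t y, up t' y'⟫ = t * t' + ⟪y, y'⟫ := by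
  simp [PiLp.inner_apply, Fintype.sum_option, mul_comm]

theorem norm_sq_up (t : ℝ) (y : E ι) : ‖up t y‖ ^ 2 = t ^ 2 + ‖y‖ ^ 2 := by
  rw [← real_inner_self_eq_norm_sq, inner_up, real_inner_self_eq_norm_sq, sq t]

theorem norm_down_le (y : E (Option ι)) : ‖down y‖ ≤ ‖y‖ := by
  have := norm_sq_up (y none) (down y)
  rw [up_down] at this
  exact abs_le_of_sq_le_sq' (by nlinarith [sq_nonneg (y none)]) (norm_nonneg _) |>.2

theorem abs_none_le (y : E (Option ι)) : |y none| ≤ ‖y‖ := by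
  simpa using PiLp.norm_apply_le y none

theorem norm_up_le (t : ℝ) (y : E ι) : ‖up t y‖ ≤ |t| + ‖y‖ := by
  refine abs_le_of_sq_le_sq' ?_ (by positivity) |>.2
  rw [norm_sq_up, ← sq_abs t]
  nlinarith [abs_nonneg t, norm_nonneg y]

theorem down_ee_none : down (ee (none : Option ι)) = 0 := by
  ext a; simp

theorem down_ee_some (a : ι) : down (ee (some a)) = ee a := by
  ext b; simp [PiLp.single_apply]

/-- the Jacobian of a graph -/
theorem jac_graph {J : E (Fin d) →L[ℝ] E ι} {J' : E (Fin d) →L[ℝ] E (Option ι)} (b : E (Fin d))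
    (h : ∀ v, J' v = up ⟪J b, J v⟫ (J v)) : jac J' = jac J * √(1 + ‖J b‖ ^ 2) := by
  let f : Module.Dual ℝ (E (Fin d)) := (innerSL ℝ (J b) ∘L J : E (Fin d) →L[ℝ] ℝ)
  have h1 : ((ContinuousLinearMap.adjoint J' ∘L J' : E (Fin d) →L[ℝ] E (Fin d)) :
      E (Fin d) →ₗ[ℝ] E (Fin d)) =
      ((ContinuousLinearMap.adjoint J ∘L J : E (Fin d) →L[ℝ] E (Fin d)) :
        E (Fin d) →ₗ[ℝ] E (Fin d)) ∘ₗ LinearMap.transvection f b := by
    refine LinearMap.ext fun v => ext_inner_left ℝ fun w => ?_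
    have e1 : f v = ⟪J b, J v⟫ := rfl
    simp only [ContinuousLinearMap.coe_coe, ContinuousLinearMap.comp_apply, LinearMap.comp_apply,
      ContinuousLinearMap.adjoint_inner_right, LinearMap.transvection.apply, h, inner_up, map_add,
      map_smul, inner_add_right, real_inner_smul_right, e1, real_inner_comm (J w) (J b)]
    ring
  have h2 : f b = ‖J b‖ ^ 2 := real_inner_self_eq_norm_sq (J b)
  rw [jac, jac, ContinuousLinearMap.det, h1, LinearMap.det_comp, LinearMap.transvection.det, h2,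
    Real.sqrt_mul' _ (by positivity)]

namespace Imm

variable [MeasurableSpace X] {M : Imm d ι X} {u F f g : X → ℝ}

theorem graph_x (hu : M.Sm u) : (M.graph u hu).x = M.gx u := rfl

theorem graph_sm (hu : M.Sm u) {Z : Type} [NormedAddCommGroup Z] [NormedSpace ℝ Z] {y : X → Z} :
    (M.graph u hu).Sm y ↔ M.Sm y := Iff.rfl


theorem isChart_graph (hu : M.Sm u) {e : OpenPartialHomeomorph X (E (Fin d))}
    (he : IsChart M.x e) : IsChart (M.gx u) e := by
  have h1 : ContDiffOn ℝ ∞ (M.gx u ∘ e.symm) e.target :=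
    contDiff_up.comp_contDiffOn ((hu.chart he).prodMk he.sm)
  refine ⟨h1, fun z hz => ?_⟩
  have h2 : DifferentiableAt ℝ (M.gx u ∘ e.symm) z :=
    (h1.contDiffAt (e.open_target.mem_nhds hz)).differentiableAt (by simp)
  have h3 := fderiv_comp z ((contDiff_down (ι := ι)).differentiable (by simp) _) h2
  have h4 : down ∘ (M.gx u ∘ e.symm) = M.x ∘ e.symm := rfl
  have h5 := he.inj z hz
  rw [← h4, h3] at h5
  exact Injective.of_comp h5


theorem gx_injective (hM : Injective M.x) (u : X → ℝ) : Injective (M.gx u) :=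
  fun _ _ h => hM (congrArg down h)

theorem sm_gx (hu : M.Sm u) : M.Sm (M.gx u) := (M.graph u hu).sm_x

theorem norm_x_sub_le (u : X → ℝ) (p : X) (y : E (Option ι)) :
    ‖M.x p - down y‖ ≤ ‖M.gx u p - y‖ := norm_down_le (M.gx u p - y)

theorem abs_u_sub_le (u : X → ℝ) (p : X) (y : E (Option ι)) :
    |u p - y none| ≤ ‖M.gx u p - y‖ := abs_none_le (M.gx u p - y)

theorem td_coord {κ : Type} [Fintype κ] {y : X → E κ} {p : X} (hy : M.DiffAt y p) (w : E ι)
    (c : κ) : M.td y p w c = M.td (fun q => y q c) p w := by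
  have h := td_comp hy (g := EuclideanSpace.proj (𝕜 := ℝ) c)
    (EuclideanSpace.proj (𝕜 := ℝ) c).differentiableAt
  rw [ContinuousLinearMap.fderiv] at h
  exact (congrArg (fun T : E ι →L[ℝ] ℝ => T w) h).symm

theorem td_gx (hu : M.Sm u) (p : X) (w : E ι) :
    M.td (M.gx u) p w = up ⟪M.grad u p, w⟫ (M.PL p w) := by
  ext c
  rw [td_coord ((sm_gx hu).diffAt p)]
  cases c with
  | none => exact td_eq_inner u p w
  | some a => exact (td_coord (M.sm_x.diffAt p) w a).symm

theorem fderiv_gx (hu : M.Sm u) {e : OpenPartialHomeomorph X (E (Fin d))} (he : IsChart M.x e)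
    {p : X} (hp : p ∈ e.source) (v : E (Fin d)) : fderiv ℝ (M.gx u ∘ e.symm) (e p) v =
      up ⟪M.grad u p, fderiv ℝ (M.x ∘ e.symm) (e p) v⟫ (fderiv ℝ (M.x ∘ e.symm) (e p) v) := by
  rw [fderiv_chart _ he hp, ContinuousLinearMap.comp_apply, td_gx hu, PL_chart he hp]

theorem nuv_eq (M : Imm d ι X) (u : X → ℝ) (p : X) :
    M.nuv u p = up (M.vv u p) (-(M.vv u p • M.grad u p)) := by
  ext c; cases c <;> rfl

theorem down_nuv (M : Imm d ι X) (u : X → ℝ) (p : X) :
    down (M.nuv u p) = -(M.vv u p • M.grad u p) := rfl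

theorem vv_sq' (M : Imm d ι X) (u : X → ℝ) (p : X) :
    M.vv u p ^ 2 * (1 + ⟪M.grad u p, M.grad u p⟫) = 1 := by
  rw [← gam_eq_inner]; exact M.vv_sq u p

theorem nuv_inner (M : Imm d ι X) (u : X → ℝ) (p : X) (w : E (Option ι)) :
    ⟪M.nuv u p, w⟫ = M.vv u p * (w none - ⟪M.grad u p, down w⟫) := by
  conv_lhs => rw [nuv_eq, ← up_down w, inner_up, inner_neg_left, real_inner_smul_left]
  ring

theorem inner_grad_sub (M : Imm d ι X) (u : X → ℝ) (p : X) (w : E (Option ι)) :
    ⟪M.grad u p, down w - ⟪M.nuv u p, w⟫ • down (M.nuv u p)⟫ =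
      w none - ⟪M.nuv u p, w⟫ * M.vv u p := by
  rw [inner_sub_right, real_inner_smul_right, down_nuv, inner_neg_right, real_inner_smul_right,
    nuv_inner]
  linear_combination (w none - ⟪M.grad u p, down w⟫) * M.vv_sq' u p

theorem PL_down_nuv (M : Imm d ι X) (u : X → ℝ) (p : X) :
    M.PL p (down (M.nuv u p)) = down (M.nuv u p) := by
  rw [down_nuv, map_neg, map_smul, PL_grad]

/-- the tangential derivative of the graph -/
theorem graph_td (hu : M.Sm u) {Z : Type} [NormedAddCommGroup Z] [NormedSpace ℝ Z] (y : X → Z)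
    (p : X) (w : E (Option ι)) : (M.graph u hu).td y p w =
      M.td y p (down w - ⟪M.nuv u p, w⟫ • down (M.nuv u p)) := by
  have hJ : ∀ v, (M.graph u hu).J p v = up ⟪M.grad u p, M.J p v⟫ (M.J p v) :=
    fderiv_gx hu (M.isChart p) (M.mem p)
  have hP : ∀ v, M.PL p (M.J p v) = M.J p v := PL_chart (M.isChart p) (M.mem p)
  have key : ContinuousLinearMap.adjoint (Lam ((M.graph u hu).J p)) w =
      ContinuousLinearMap.adjoint (Lam (M.J p)) (down w - ⟪M.nuv u p, w⟫ • down (M.nuv u p)) := by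
    refine adj_Lam_eq_of ((M.graph u hu).J_inj p) fun v => ?_
    rw [hJ, hJ, ← PL_eq, ← M.PL_symm, PL_grad, inner_grad_sub]
    conv_lhs => rw [← up_down w, up_sub, inner_up, up_down, inner_sub_right, ← M.PL_symm, hP,
      inner_sub_right, real_inner_smul_right, down_nuv, inner_neg_right, real_inner_smul_right,
      real_inner_comm (M.grad u p) (M.J p v)]
    ring
  exact congrArg (fderiv ℝ (y ∘ (M.ch p).symm) (M.ch p p)) key

theorem td_down_nuv (M : Imm d ι X) (u f : X → ℝ) (p : X) :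
    M.td f p (down (M.nuv u p)) = -M.pre.dir (M.Xf u) f p := by
  rw [td_apply, dir_apply, ← Finset.sum_neg_distrib]
  exact Finset.sum_congr rfl fun a _ => neg_mul _ _

theorem graph_pre (hu : M.Sm u) : (M.graph u hu).pre = M.gS u := by
  have h1 : (M.graph u hu).pre.x = (M.gS u).x := by
    funext c p; cases c <;> rfl
  have h2 : (M.graph u hu).pre.D = (M.gS u).D := by
    funext c f p
    have e1 : ⟪M.nuv u p, ee c⟫ = M.nu u c p := by simp [EuclideanSpace.inner_single_right, nuv]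
    have e2 : (M.gS u).D c f p =
        (c.elim 0 fun a => M.pre.D a f p) + M.nu u c p * M.pre.dir (M.Xf u) f p := by
      cases c <;> rfl
    rw [e2]
    refine (graph_td hu f p (ee c)).trans ?_
    rw [map_sub, map_smul, td_down_nuv, e1, smul_eq_mul, mul_neg, sub_neg_eq_add]
    cases c with
    | none => rw [down_ee_none, map_zero]; rfl
    | some a => rw [down_ee_some]; rfl
  exact congrArg₂ Pre.mk h1 h2

theorem graph_PL (hu : M.Sm u) (p : X) (w : E (Option ι)) :
    (M.graph u hu).PL p w = M.PbL p w - ⟪M.nuv u p, w⟫ • M.nuv u p := by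
  refine (graph_td hu (M.gx u) p w).trans ?_
  rw [td_gx hu, inner_grad_sub, map_sub, map_smul, PL_down_nuv, ← up_sub, ← smul_up]
  exact congrArg (fun z => M.PbL p w - ⟪M.nuv u p, w⟫ • z) (up_down (M.nuv u p))

theorem norm_nuv' (M : Imm d ι X) (u : X → ℝ) (p : X) : ‖M.nuv u p‖ = 1 := by
  refine (sq_eq_sq₀ (norm_nonneg _) zero_le_one).1 ?_
  rw [← real_inner_self_eq_norm_sq, nuv_inner, down_nuv, inner_neg_right, real_inner_smul_right]
  have : M.nuv u p none = M.vv u p := rfl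
  rw [this]
  linear_combination M.vv_sq' u p

theorem norm_nuv (_hu : M.Sm u) (p : X) : ‖M.nuv u p‖ = 1 := M.norm_nuv' u p

theorem PbL_nuv (_hu : M.Sm u) (p : X) : M.PbL p (M.nuv u p) = M.nuv u p := by
  rw [PbL, PL_down_nuv, up_down]

theorem nu_none (M : Imm d ι X) (u : X → ℝ) : M.nu u none = M.vv u := rfl

theorem nu_some (M : Imm d ι X) (u : X → ℝ) (a : ι) (p : X) :
    M.nu u (some a) p = -M.Xf u a p := rfl

theorem Xf_apply (M : Imm d ι X) (u : X → ℝ) (a : ι) (p : X) :
    M.Xf u a p = M.vv u p * M.pre.D a u p := rfl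

theorem tan_Xf (M : Imm d ι X) (u : X → ℝ) : M.pre.Tan (M.Xf u) := fun a => by
  funext p
  have h := congrFun (tan_D (M := M) u a) p
  simp only [Finset.sum_apply, Pi.mul_apply] at h ⊢
  simp only [Xf_apply]
  rw [← h, Finset.mul_sum]
  exact Finset.sum_congr rfl fun b _ => by ring

theorem dir_Xf (M : Imm d ι X) (u f : X → ℝ) (p : X) :
    M.pre.dir (M.Xf u) f p = M.vv u p * M.pre.gam u f p := by
  rw [dir_apply, gam_apply, Finset.mul_sum]
  exact Finset.sum_congr rfl fun b _ => mul_assoc _ _ _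

theorem sum_Xf_sq (M : Imm d ι X) (u : X → ℝ) (p : X) :
    ∑ a, M.Xf u a p * M.Xf u a p = 1 - M.vv u p ^ 2 := by
  have h : ∑ a, M.Xf u a p * M.Xf u a p = M.vv u p ^ 2 * M.pre.gam u u p := by
    rw [gam_apply, Finset.mul_sum]
    exact Finset.sum_congr rfl fun b _ => by rw [Xf_apply]; ring
  linear_combination h + M.vv_sq u p

theorem gS_D_apply (M : Imm d ι X) (u f : X → ℝ) (c : Option ι) (p : X) : (M.gS u).D c f p =
    (c.elim 0 fun a => M.pre.D a f p) + M.nu u c p * M.pre.dir (M.Xf u) f p := by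
  cases c <;> rfl

theorem gS_gam (M : Imm d ι X) (u f g : X → ℝ) (p : X) : (M.gS u).gam f g p =
    M.pre.gam f g p - M.pre.dir (M.Xf u) f p * M.pre.dir (M.Xf u) g p := by
  have h0 : (M.gS u).gam f g p = ∑ c, (M.gS u).D c f p * (M.gS u).D c g p := by simp [Pre.gam]
  have h1 : ∑ a, (M.gS u).D (some a) f p * (M.gS u).D (some a) g p =
      ∑ a, M.pre.D a f p * M.pre.D a g p
        - (∑ a, M.Xf u a p * M.pre.D a f p) * M.pre.dir (M.Xf u) g p
        - M.pre.dir (M.Xf u) f p * ∑ a, M.Xf u a p * M.pre.D a g p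
        + (∑ a, M.Xf u a p * M.Xf u a p) * (M.pre.dir (M.Xf u) f p * M.pre.dir (M.Xf u) g p) := by
    rw [Finset.sum_mul, Finset.sum_mul, Finset.mul_sum, ← Finset.sum_sub_distrib,
      ← Finset.sum_sub_distrib, ← Finset.sum_add_distrib]
    refine Finset.sum_congr rfl fun a _ => ?_
    simp only [gS_D_apply, nu_some, Option.elim]
    ring
  rw [h0, Fintype.sum_option, h1, sum_Xf_sq, ← gam_apply, ← dir_apply, ← dir_apply]
  simp only [gS_D_apply, nu_none, Option.elim]
  ring

theorem gS_gam_le (M : Imm d ι X) (u f : X → ℝ) (p : X) :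
    (M.gS u).gam f f p ≤ M.pre.gam f f p := by
  rw [gS_gam]; nlinarith [mul_self_nonneg (M.pre.dir (M.Xf u) f p)]

/-- `|∇' u|² = 1 - v²` -/
theorem gS_gam_u (M : Imm d ι X) (u : X → ℝ) (p : X) :
    (M.gS u).gam u u p = 1 - M.vv u p ^ 2 := by
  rw [gS_gam, dir_Xf]
  linear_combination (1 - M.pre.gam u u p) * M.vv_sq u p

/-! ### smoothness -/

theorem Sm.Xf (hu : M.Sm u) (a : ι) : M.Sm (M.Xf u a) := hu.vv.mul (hu.D a)

theorem Sm.nu (hu : M.Sm u) (c : Option ι) : M.Sm (M.nu u c) := by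
  cases c with
  | none => exact hu.vv
  | some a => exact (hu.Xf a).neg

theorem Sm.nuv (hu : M.Sm u) : M.Sm (M.nuv u) := sm_euclid.2 hu.nu

theorem Sm.A (hu : M.Sm u) (a b : Option ι) : M.Sm (M.A u a b) :=
  (M.hom.A ⟨u, hu⟩ ⟨_, hu.vv⟩ a b ▸ sm_val _ :
    M.Sm (M.pre.A (M.val ⟨u, hu⟩) (M.val ⟨_, hu.vv⟩) a b))

theorem Sm.a2 (hu : M.Sm u) : M.Sm (M.a2 u) :=
  (M.hom.a2 ⟨u, hu⟩ ⟨_, hu.vv⟩ ▸ sm_val _ : M.Sm (M.pre.a2 (M.val ⟨u, hu⟩) (M.val ⟨_, hu.vv⟩)))

theorem Sm.hF (hF : M.Sm F) (hu : M.Sm u) : M.Sm (M.hF F u) := sm_dvF hF hu.Xf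

theorem a2_apply (M : Imm d ι X) (u : X → ℝ) (p : X) :
    M.a2 u p = ∑ a, ∑ b, M.A u a b p * M.A u a b p := by simp [a2, Pre.a2, A]

theorem a2_nonneg (M : Imm d ι X) (u : X → ℝ) (p : X) : 0 ≤ M.a2 u p := by
  rw [a2_apply]
  exact Finset.sum_nonneg fun _ _ => Finset.sum_nonneg fun _ _ => mul_self_nonneg _

/-- the hypothesis `hv` of `G/Graph` -/
theorem hv (hu : M.Sm u) : (⟨_, hu.vv⟩ : SmR M.ch) ^ 2 * (1 + M.preR.gam ⟨u, hu⟩ ⟨u, hu⟩) = 1 :=
  Subtype.ext (by
    rw [← val_apply, map_mul, map_pow, map_add, map_one, M.hom.gam]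
    exact funext fun p => M.vv_sq u p)

/-- transport for graphs: use with `(M.isDS.foo (hv hu))` -/
theorem ghom (hu : M.Sm u) : (M.preR.graph ⟨u, hu⟩ ⟨_, hu.vv⟩).Hom (M.gS u) M.val :=
  M.hom.graph _ _

/-! ### identities for functions -/

theorem gS_P (hu : M.Sm u) (c e : Option ι) (p : X) :
    (M.gS u).P c e p = M.pre.Pb c e p - M.nu u c p * M.nu u e p := by
  have := congrArg M.val (M.isDS.graph_P (hv hu) c e)
  simp only [map_sub, map_mul, (ghom hu).P, M.hom.Pb, M.hom.nu] at this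
  exact congrFun this p

theorem A_symm (hu : M.Sm u) (a b : Option ι) : M.A u a b = M.A u b a := by
  have := congrArg M.val (M.isDS.A_symm (hv hu) a b)
  simp only [M.hom.A] at this
  exact this

theorem A_tan (hu : M.Sm u) (b : Option ι) : (M.gS u).Tan fun a => M.A u a b := fun a => by
  have := congrArg M.val (M.isDS.A_tan (hv hu) b a)
  simp only [map_sum, map_mul, M.hom.A, (ghom hu).P] at this
  exact this

theorem tr_A (hu : M.Sm u) (p : X) : ∑ a, M.A u a a p = M.pre.dv (M.Xf u) p := by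
  have := congrArg M.val (M.isDS.tr_A (hv hu))
  simp only [map_sum, M.hom.A, M.hom.dv, M.hom.X] at this
  have := congrFun this p
  simp only [Finset.sum_apply] at this
  exact this

theorem dv_X (hu : M.Sm u) (p : X) : M.pre.dv (M.Xf u) p = M.vv u p * (M.pre.lap u p -
    ∑ a, ∑ b, M.Xf u a p * M.Xf u b p * M.pre.hess u a b p) := by
  have := congrArg M.val (M.isDS.dv_X (hv hu))
  simp only [map_sum, map_mul, map_sub, M.hom.lap, M.hom.hess, M.hom.dv, M.hom.X] at this
  have := congrFun this p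
  simp only [Finset.sum_apply, Pi.mul_apply, Pi.sub_apply] at this
  exact this

theorem hF_apply (M : Imm d ι X) (F u : X → ℝ) (p : X) :
    M.hF F u p = M.pre.dv (M.Xf u) p + M.pre.dir (M.Xf u) F p := rfl

theorem A_eq (hu : M.Sm u) (a b : Option ι) (p : X) : M.A u a b p = M.vv u p * ∑ c, ∑ e,
    (M.gS u).P a (some c) p * (M.gS u).P b (some e) p * M.pre.hess u c e p := by
  have := congrArg M.val (M.isDS.A_eq (hv hu) a b)
  simp only [map_sum, map_mul, M.hom.hess, M.hom.A, (ghom hu).P] at this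
  have := congrFun this p
  simp only [Finset.sum_apply, Pi.mul_apply] at this
  exact this

theorem gauss (hu : M.Sm u) (hF : M.Sm F) (p : X) : (M.gS u).EF F p =
    M.pre.EF F p + M.hF F u p ^ 2 - M.a2 u p - 2 * M.pre.RicF F (M.Xf u) p := by
  have := congrArg M.val (M.isDS.gauss (hv hu) ⟨F, hF⟩)
  simp only [map_add, map_sub, map_mul, map_pow, map_ofNat, M.hom.EF, M.hom.hF, M.hom.a2,
    M.hom.RicF, M.hom.X, (ghom hu).EF] at this
  exact congrFun this p

theorem jacobi (hu : M.Sm u) (hF : M.Sm F) (p : X) : -(M.gS u).lapF F (M.vv u) p =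
    (M.a2 u p + M.pre.RicF F (M.Xf u) p + M.pre.dir (M.Xf u) (M.hF F u) p) * M.vv u p := by
  have := congrArg M.val (M.isDS.jacobi (hv hu) ⟨F, hF⟩)
  simp only [map_add, map_neg, map_mul, M.hom.hF, M.hom.a2, M.hom.RicF, M.hom.X, M.hom.dir,
    (ghom hu).lapF] at this
  exact congrFun this p

/-! ### symmetries -/

theorem vv_congr {u' : X → ℝ} {p : X} (h : u =ᶠ[𝓝 p] u') : M.vv u p = M.vv u' p := by
  rw [vv, vv, gam_congr h h]

theorem Xf_congr {u' : X → ℝ} {p : X} (h : u =ᶠ[𝓝 p] u') (a : ι) : M.Xf u a p = M.Xf u' a p := by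
  rw [Xf_apply, Xf_apply, vv_congr h, D_congr h]

theorem Xf_eventuallyEq {u' : X → ℝ} {p : X} (h : u =ᶠ[𝓝 p] u') (a : ι) :
    M.Xf u a =ᶠ[𝓝 p] M.Xf u' a := h.eventuallyEq_nhds.mono fun _ hq => Xf_congr hq a

theorem hF_congr {u' : X → ℝ} {p : X} (h : u =ᶠ[𝓝 p] u') (F : X → ℝ) :
    M.hF F u p = M.hF F u' p := by
  simp only [hF_apply, dv_apply, dir_apply, D_congr (Xf_eventuallyEq h _), Xf_congr h]

theorem vv_neg (M : Imm d ι X) (u : X → ℝ) : M.vv (fun p => -u p) = M.vv u := by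
  funext p
  simp only [vv, gam_apply, D_neg, neg_mul_neg]

theorem Xf_neg (M : Imm d ι X) (u : X → ℝ) (a : ι) :
    M.Xf (fun p => -u p) a = fun p => -M.Xf u a p := by
  funext p
  rw [Xf_apply, Xf_apply, vv_neg, D_neg, mul_neg]

theorem dir_Xf_neg (M : Imm d ι X) (u f : X → ℝ) (p : X) :
    M.pre.dir (M.Xf fun p => -u p) f p = -M.pre.dir (M.Xf u) f p := by
  simp only [dir_apply, Xf_neg, neg_mul, Finset.sum_neg_distrib]

theorem dir_neg (M : Imm d ι X) (Y : ι → X → ℝ) (f : X → ℝ) (p : X) :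
    M.pre.dir Y (fun p => -f p) p = -M.pre.dir Y f p := by
  simp only [dir_apply, D_neg, mul_neg, Finset.sum_neg_distrib]

theorem hF_neg (M : Imm d ι X) (F u : X → ℝ) : M.hF F (fun p => -u p) = fun p => -M.hF F u p := by
  funext p
  simp only [hF_apply, dv_apply, dir_Xf_neg, Xf_neg, D_neg, Finset.sum_neg_distrib, neg_add]

theorem D_add_const (M : Imm d ι X) (u : X → ℝ) (t : ℝ) (a : ι) :
    M.pre.D a (fun p => u p + t) = M.pre.D a u := by
  funext p
  have h : (fun q => u q + t) ∘ (M.ch p).symm = fun z => (u ∘ (M.ch p).symm) z + t := rfl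
  simp only [pre, td, h, fderiv_add_const]

theorem vv_add_const (M : Imm d ι X) (u : X → ℝ) (t : ℝ) : M.vv (fun p => u p + t) = M.vv u := by
  funext p
  simp only [vv, gam_apply, D_add_const]

theorem Xf_add_const (M : Imm d ι X) (u : X → ℝ) (t : ℝ) : M.Xf (fun p => u p + t) = M.Xf u := by
  funext a p
  rw [Xf_apply, Xf_apply, vv_add_const, D_add_const]

theorem nu_add_const (M : Imm d ι X) (u : X → ℝ) (t : ℝ) : M.nu (fun p => u p + t) = M.nu u := by
  funext c p
  cases c with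
  | none => rw [nu_none, nu_none, vv_add_const]
  | some a => rw [nu_some, nu_some, Xf_add_const]

theorem gS_D_add_const (M : Imm d ι X) (u : X → ℝ) (t : ℝ) :
    (M.gS fun p => u p + t).D = (M.gS u).D := by
  funext c f p
  rw [gS_D_apply, gS_D_apply, nu_add_const, Xf_add_const]

theorem hF_add_const (M : Imm d ι X) (F u : X → ℝ) (t : ℝ) :
    M.hF F (fun p => u p + t) = M.hF F u := by
  funext p
  rw [hF_apply, hF_apply, Xf_add_const]

theorem Adm.add_const {Λ : ℝ} (h : M.Adm F Λ u) (t : ℝ) : M.Adm F Λ fun p => u p + t where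
  sm := h.sm.add (sm_const t)
  h := by rw [hF_add_const]; exact h.h
  dh := by rw [hF_add_const, gS_D_add_const]; exact h.dh
  xh := by rw [hF_add_const, Xf_add_const]; exact h.xh

theorem Adm.neg {Λ : ℝ} (h : M.Adm F Λ u) : M.Adm F Λ fun p => -u p where
  sm := h.sm.neg
  h p := by rw [hF_neg, abs_neg]; exact h.h p
  dh c p := by
    have := h.dh c p
    rw [hF_neg, gS_D_apply, dir_Xf_neg, dir_neg, neg_neg]
    rw [gS_D_apply] at this
    cases c with
    | none => rw [nu_none, vv_neg]; exact this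
    | some a =>
      rw [← abs_neg] at this
      simp only [nu_some, Xf_neg, D_neg, Option.elim] at this ⊢
      convert this using 2
      ring
  xh p := by rw [hF_neg, dir_Xf_neg, dir_neg, neg_neg]; exact h.xh p

/-! ### the measure -/

variable [T2Space X] [SecondCountableTopology X] [BorelSpace X]

theorem jac_gx (hu : M.Sm u) {e : OpenPartialHomeomorph X (E (Fin d))} (he : IsChart M.x e)
    {p : X} (hp : p ∈ e.source) : jac (fderiv ℝ (M.gx u ∘ e.symm) (e p)) =
      jac (fderiv ℝ (M.x ∘ e.symm) (e p)) * (M.vv u p)⁻¹ := by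
  obtain ⟨b, hb⟩ := PL_mem_range he hp (M.grad u p)
  rw [PL_grad] at hb
  rw [jac_graph b fun v => by rw [hb]; exact fderiv_gx hu he hp v, hb, vv, inv_inv, gam_self_eq]

theorem measurable_vv_inv (hu : M.Sm u) : Measurable fun p => ENNReal.ofReal (M.vv u p)⁻¹ :=
  hu.vv.continuous.measurable.inv.ennreal_ofReal

theorem graph_mu (hu : M.Sm u) : (M.graph u hu).mu = M.gmu u := by
  refine (eq_mu fun p => ⟨M.ch p, (M.graph u hu).isChart p, M.mem p, ?_⟩).symm
  have he := M.isChart p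
  rw [gmu, restrict_withDensity (M.ch p).open_source.measurableSet, mu_restrict he]
  refine Measure.ext_of_lintegral _ fun φ hφ => ?_
  rw [lintegral_withDensity_eq_lintegral_mul _ (measurable_vv_inv hu) hφ, Ms0.lint he,
    graph_x, Ms0.lint (isChart_graph hu he)]
  refine setLIntegral_congr_fun (M.ch p).open_target.measurableSet fun z hz => ?_
  have h := jac_gx hu he ((M.ch p).map_target hz)
  rw [(M.ch p).right_inv hz] at h
  beta_reduce
  rw [h, ENNReal.ofReal_mul (Ms0.jac_nonneg _), mul_assoc]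
  rfl

theorem graph_Th (hu : M.Sm u) (y : E (Option ι)) (r : ℝ) :
    (M.graph u hu).Th 1 y r = M.gTh u y r := by
  simp only [Th, gTh, graph_mu hu, Pi.one_apply, one_mul, graph_x]

theorem integral_gmu (hu : M.Sm u) (f : X → ℝ) :
    ∫ p, f p ∂M.gmu u = ∫ p, (M.vv u p)⁻¹ * f p ∂M.mu := by
  rw [gmu, integral_withDensity_eq_integral_toReal_smul (measurable_vv_inv hu)
    (Eventually.of_forall fun _ => ENNReal.ofReal_lt_top)]
  refine integral_congr_ae (Eventually.of_forall fun p => ?_)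
  simp only [ENNReal.toReal_ofReal (inv_pos.2 (M.vv_pos u p)).le, smul_eq_mul]

theorem integral_vv_mul (hu : M.Sm u) (f : X → ℝ) :
    ∫ p, M.vv u p * f p ∂M.gmu u = ∫ p, f p ∂M.mu := by
  rw [integral_gmu hu]
  simp only [inv_mul_cancel_left₀ (M.vv_pos u _).ne']

theorem isFiniteMeasure_gmu [CompactSpace X] (hu : M.Sm u) : IsFiniteMeasure (M.gmu u) :=
  graph_mu hu ▸ inferInstance

end Imm

end Crest.Agent.N222

end
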