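import Crest.Agent.N222.F.Res0

/-!
# Row 222, framework: restriction to submanifolds, local isometries, constructions
(statements by helper10, proofs by helper64; the constructions of charts are in `F/Res0`)
-/

set_option autoImplicit false
set_option linter.unusedSectionVars false
open MeasureTheory Set Filter Topology Function
open scoped ContDiff InnerProductSpace RealInnerProductSpace ENNReal

noncomputable section

namespace Crest.Agent.N222

variable {d m : ℕ} {ι : Type} [Fintype ι] {X Y : Type} [TopologicalSpace X] [TopologicalSpace Y]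

/-- near `q` the map `j` is continuous and compatible with the immersions -/
def Loc (N : Imm m ι Y) (M : Imm d ι X) (j : Y → X) (q : Y) : Prop :=
  ∀ᶠ q' in 𝓝 q, ContinuousAt j q' ∧ N.x q' = M.x (j q')

theorem Loc.eventually {N : Imm m ι Y} {M : Imm d ι X} {j : Y → X} {q : Y} (h : Loc N M j q) :
    ∀ᶠ q' in 𝓝 q, Loc N M j q' := eventually_eventually_nhds.2 h

theorem Loc.of_cont {N : Imm m ι Y} {M : Imm d ι X} {j : Y → X} (hj : Continuous j)
    (hx : ∀ q, N.x q = M.x (j q)) (q : Y) : Loc N M j q :=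
  Eventually.of_forall fun q' => ⟨hj.continuousAt, hx q'⟩

/-! ### submanifolds -/

section Sub

variable {N : Imm m ι Y} {M : Imm d ι X} {j : Y → X} {q : Y}
  {F : Type} [NormedAddCommGroup F] [NormedSpace ℝ F]

theorem Loc.x_eq (h : Loc N M j q) : N.x =ᶠ[𝓝 q] fun q => M.x (j q) := h.mono fun _ h => h.2

/-- the map `j` in the preferred charts -/
theorem Loc.smooth_j (h : Loc N M j q) :
    ContDiffAt ℝ ∞ (M.ch (j q) ∘ j ∘ (N.ch q).symm) (N.ch q q) := by
  have hz := (N.ch q).map_source (N.mem q)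
  have h0 := (N.ch q).left_inv (N.mem q)
  refine (M.isChart (j q)).smooth_map hz (by rw [h0]; exact h.self_of_nhds.1)
    (by rw [h0]; exact M.mem _) ?_
  exact ((N.isChart q).contDiffAt hz).congr_of_eventuallyEq (symm_eventuallyEq (N.mem q) h.x_eq).symm

theorem Loc.chart_eq (h : Loc N M j q) {Z : Type*} (f : X → Z) :
    (fun q => f (j q)) ∘ (N.ch q).symm =ᶠ[𝓝 (N.ch q q)]
      (f ∘ (M.ch (j q)).symm) ∘ (M.ch (j q) ∘ j ∘ (N.ch q).symm) := by
  refine symm_eventuallyEq (g := (f ∘ (M.ch (j q)).symm) ∘ (M.ch (j q) ∘ j)) (N.mem q) ?_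
  filter_upwards [h.self_of_nhds.1.eventually ((M.ch (j q)).eventually_left_inverse (M.mem _))]
    with q' hq'
  simp [hq']

theorem Loc.j_apply (N : Imm m ι Y) (M : Imm d ι X) (j : Y → X) (q : Y) :
    (M.ch (j q) ∘ j ∘ (N.ch q).symm) (N.ch q q) = M.ch (j q) (j q) := by
  simp [(N.ch q).left_inv (N.mem q)]

theorem Loc.hasFDerivAt (h : Loc N M j q) {f : X → F} (hf : M.DiffAt f (j q)) :
    HasFDerivAt ((fun q => f (j q)) ∘ (N.ch q).symm)
      (fderiv ℝ (f ∘ (M.ch (j q)).symm) (M.ch (j q) (j q)) ∘L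
        fderiv ℝ (M.ch (j q) ∘ j ∘ (N.ch q).symm) (N.ch q q)) (N.ch q q) := by
  have h1 : HasFDerivAt (f ∘ (M.ch (j q)).symm) (fderiv ℝ (f ∘ (M.ch (j q)).symm) (M.ch (j q) (j q)))
      ((M.ch (j q) ∘ j ∘ (N.ch q).symm) (N.ch q q)) := by
    rw [Loc.j_apply]; exact hf.hasFDerivAt
  exact (h1.comp _ (h.smooth_j.differentiableAt (by simp)).hasFDerivAt).congr_of_eventuallyEq
    (h.chart_eq f)

theorem Loc.J_eq (h : Loc N M j q) :
    N.J q = M.J (j q) ∘L fderiv ℝ (M.ch (j q) ∘ j ∘ (N.ch q).symm) (N.ch q q) := by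
  rw [Imm.J, (symm_eventuallyEq (N.mem q) h.x_eq).fderiv_eq]
  exact (h.hasFDerivAt (M.sm_x.diffAt _)).fderiv

theorem Loc.contDiffAt (h : Loc N M j q) {f : X → F} (hf : M.Sm f) :
    ContDiffAt ℝ ∞ ((fun q => f (j q)) ∘ (N.ch q).symm) (N.ch q q) := by
  have h1 : ContDiffAt ℝ ∞ (f ∘ (M.ch (j q)).symm) ((M.ch (j q) ∘ j ∘ (N.ch q).symm) (N.ch q q)) := by
    rw [Loc.j_apply]
    exact (hf (j q)).contDiffAt ((M.ch _).open_target.mem_nhds ((M.ch _).map_source (M.mem _)))
  exact (h1.comp _ h.smooth_j).congr_of_eventuallyEq (h.chart_eq f)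

theorem Imm.Sm.res {f : X → F} (hf : M.Sm f) (h : ∀ q, Loc N M j q) : N.Sm fun q => f (j q) :=
  Imm.sm_of_charts fun q => ⟨N.ch q, N.isChart q, N.mem q, (h q).contDiffAt hf⟩

theorem Loc.diffAt (h : Loc N M j q) {f : X → F} (hf : M.DiffAt f (j q)) :
    N.DiffAt (fun q => f (j q)) q := by
  exact (h.hasFDerivAt hf).differentiableAt

theorem Loc.td (h : Loc N M j q) {f : X → F} (hf : M.DiffAt f (j q)) (w : E ι) :
    N.td (fun q => f (j q)) q w = M.td f (j q) (N.PL q w) := by
  rw [Imm.td, (h.hasFDerivAt hf).fderiv, Imm.fderiv_chart f (M.isChart (j q)) (M.mem _), Imm.PL_eq]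
  exact congrArg (M.td f (j q)) (congrArg (fun T : E (Fin m) →L[ℝ] E ι =>
    T (ContinuousLinearMap.adjoint (Lam (N.J q)) w)) h.J_eq).symm

theorem Loc.PL (h : Loc N M j q) (w : E ι) : M.PL (j q) (N.PL q w) = N.PL q w := by
  have h1 := h.td (M.sm_x.diffAt _) w
  rw [← Imm.td_congr h.x_eq] at h1
  exact h1.symm

variable [DecidableEq ι]

theorem Loc.grad (h : Loc N M j q) {f : X → ℝ} (hf : M.DiffAt f (j q)) :
    N.grad (fun q => f (j q)) q = N.PL q (M.grad f (j q)) := by
  ext a
  change N.td (fun q => f (j q)) q (ee a) = _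
  rw [h.td hf, Imm.td_eq_inner, ← N.PL_symm]
  simp [EuclideanSpace.inner_single_right]

theorem Loc.D (h : Loc N M j q) {f : X → ℝ} (hf : M.DiffAt f (j q)) (a : ι) :
    N.pre.D a (fun q => f (j q)) q = ∑ b, N.pre.P a b q * M.pre.D b f (j q) := by
  have h1 := congrArg (fun v : E ι => v a) (h.grad hf)
  simp only [N.PL_apply] at h1
  exact h1

theorem Loc.gam_le (h : Loc N M j q) {f : X → ℝ} (hf : M.DiffAt f (j q)) :
    N.pre.gam (fun q => f (j q)) (fun q => f (j q)) q ≤ M.pre.gam f f (j q) := by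
  rw [Imm.gam_self_eq, Imm.gam_self_eq, h.grad hf]
  exact pow_le_pow_left₀ (norm_nonneg _) (N.norm_PL_le q _) 2

theorem Loc.PP (h : Loc N M j q) (b l : ι) :
    ∑ e, N.pre.P b e q * M.pre.P e l (j q) = N.pre.P b l q := by
  have h1 := congrArg (fun v : E ι => v l) (h.PL (ee b))
  simp only [M.PL_apply, ← N.P_apply] at h1
  rw [← h1]
  exact Finset.sum_congr rfl fun e _ => by rw [M.P_symm e l, mul_comm]

theorem Loc.P_hess (h : Loc N M j q) (f : X → ℝ) (b k : ι) :
    ∑ e, N.pre.P b e q * M.pre.hess f k e (j q) =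
      ∑ l, N.pre.P b l q * M.pre.D k (M.pre.D l f) (j q) := by
  simp only [Imm.hess_apply, Finset.mul_sum, ← mul_assoc]
  rw [Finset.sum_comm]
  exact Finset.sum_congr rfl fun l _ => by rw [← Finset.sum_mul, h.PP]

theorem Loc.DD (h : Loc N M j q) {f : X → ℝ} (hf : M.Sm f) (a c : ι) :
    N.pre.D a (N.pre.D c fun q => f (j q)) q =
      ∑ e, N.pre.P c e q * ∑ k, N.pre.P a k q * M.pre.D k (M.pre.D e f) (j q) +
        ∑ e, N.pre.D a (N.pre.P c e) q * M.pre.D e f (j q) := by
  have h1 : (N.pre.D c fun q => f (j q)) =ᶠ[𝓝 q]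
      fun q => ∑ e, N.pre.P c e q * M.pre.D e f (j q) :=
    h.eventually.mono fun q' hq' => hq'.D (hf.diffAt _) c
  have h2 : ∀ e, N.DiffAt (fun q => M.pre.D e f (j q)) q := fun e => h.diffAt ((hf.D e).diffAt _)
  have h3 : ∀ e, N.DiffAt (fun q => N.pre.P c e q * M.pre.D e f (j q)) q := fun e =>
    DifferentiableAt.mul ((N.sm_P c e).diffAt q) (h2 e)
  rw [Imm.D_congr h1, Imm.D_sum _ fun e _ => h3 e, ← Finset.sum_add_distrib]
  refine Finset.sum_congr rfl fun e _ => ?_
  rw [Imm.D_mul ((N.sm_P c e).diffAt q) (h2 e), h.D ((hf.D e).diffAt _)]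

theorem Loc.hess (h : Loc N M j q) {f : X → ℝ} (hf : M.Sm f) (a b : ι) :
    N.pre.hess (fun q => f (j q)) a b q =
      ∑ c, ∑ e, N.pre.P a c q * N.pre.P b e q * M.pre.hess f c e (j q) +
        ∑ c, N.pre.II a b c q * M.pre.D c f (j q) := by
  rw [Imm.hess_apply]
  simp only [h.DD hf, mul_add, Finset.sum_add_distrib]
  congr 1
  · have h1 : ∀ c, ∑ e, N.pre.P a c q * N.pre.P b e q * M.pre.hess f c e (j q) =
        ∑ l, N.pre.P b l q * (N.pre.P a c q * M.pre.D c (M.pre.D l f) (j q)) := fun c => by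
      simp only [mul_assoc, ← Finset.mul_sum, h.P_hess]
      simp only [Finset.mul_sum]
      exact Finset.sum_congr rfl fun l _ => by ring
    have h2 : ∀ G : ι → ℝ, ∑ c, N.pre.P b c q * ∑ e, N.pre.P c e q * G e =
        ∑ e, N.pre.P b e q * G e := fun G => by
      simp only [Finset.mul_sum, ← mul_assoc]
      rw [Finset.sum_comm]
      exact Finset.sum_congr rfl fun e _ => by rw [← Finset.sum_mul, N.PP]
    simp only [h1]
    rw [h2, Finset.sum_comm]
    simp only [Finset.mul_sum]
  · simp only [Finset.mul_sum, ← mul_assoc]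
    rw [Finset.sum_comm]
    refine Finset.sum_congr rfl fun e _ => ?_
    rw [← Finset.sum_mul, Pre.II, Imm.hess_apply]
    rfl

theorem Loc.lap (h : Loc N M j q) {f : X → ℝ} (hf : M.Sm f) :
    N.pre.lap (fun q => f (j q)) q = ∑ c, ∑ e, N.pre.P c e q * M.pre.hess f c e (j q) +
      ∑ c, N.pre.H c q * M.pre.D c f (j q) := by
  rw [Imm.lap_apply]
  simp only [h.DD hf, Finset.sum_add_distrib, h.P_hess]
  congr 1
  · simp only [Finset.mul_sum, ← mul_assoc]
    rw [Finset.sum_comm]
    conv_rhs => rw [Finset.sum_comm]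
    refine Finset.sum_congr rfl fun e _ => ?_
    rw [Finset.sum_comm]
    refine Finset.sum_congr rfl fun k _ => ?_
    rw [← Finset.sum_mul, ← N.PP k e q]
    congr 1
    exact Finset.sum_congr rfl fun a _ => by rw [N.P_symm k a, mul_comm]
  · rw [Finset.sum_comm]
    refine Finset.sum_congr rfl fun e _ => ?_
    rw [← Finset.sum_mul, Pre.H, Imm.lap_apply]
    rfl

theorem Loc.cost_le [MeasurableSpace X] [MeasurableSpace Y] (h : Loc N M j q) {om a : X → ℝ}
    (ho : M.DiffAt om (j q)) (ha : M.DiffAt a (j q)) :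
    N.cost (fun q => om (j q)) (fun q => a (j q)) q ≤ M.cost om a (j q) := by
  have h2 : M.DiffAt (fun p => om p ^ 2) (j q) := DifferentiableAt.pow ho 2
  have e1 : ∀ v : E ι, √(∑ c, v c ^ 2) = ‖v‖ := fun v => by
    simp [EuclideanSpace.norm_eq]
  have e2 := e1 (om (j q) ^ 2 • M.grad a (j q) - a (j q) • M.grad (fun p => om p ^ 2) (j q))
  have e3 := e1 (om (j q) ^ 2 • N.grad (fun q => a (j q)) q
    - a (j q) • N.grad (fun q => om (j q) ^ 2) q)
  have e4 := N.norm_PL_le q
    (om (j q) ^ 2 • M.grad a (j q) - a (j q) • M.grad (fun p => om p ^ 2) (j q))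
  rw [map_sub, map_smul, map_smul, ← h.grad ha, ← h.grad h2, ← e2, ← e3] at e4
  exact mul_le_mul_of_nonneg_left e4 zero_le_two

end Sub

/-! ### local isometries (same dimension); no hypothesis on the functions -/

section Iso

variable {N : Imm d ι Y} {M : Imm d ι X} {j : Y → X} {q : Y}

theorem Loc.inj_j (h : Loc N M j q) :
    Injective (fderiv ℝ (M.ch (j q) ∘ j ∘ (N.ch q).symm) (N.ch q q)) := by
  have h1 := N.J_inj q
  rw [h.J_eq, ContinuousLinearMap.coe_comp] at h1
  exact h1.of_comp

theorem Loc.PL_iso (h : Loc N M j q) : N.PL q = M.PL (j q) := by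
  have hs := (LinearMap.injective_iff_surjective (f := (fderiv ℝ (M.ch (j q) ∘ j ∘ (N.ch q).symm)
    (N.ch q q) : E (Fin d) →ₗ[ℝ] E (Fin d)))).1 h.inj_j
  have h1 : ∀ w, N.PL q (M.PL (j q) w) = M.PL (j q) w := fun w => by
    obtain ⟨v, hv⟩ := hs (ContinuousLinearMap.adjoint (Lam (M.J (j q))) w)
    have h2 : M.PL (j q) w = N.J q v := by
      rw [Imm.PL_eq, ← hv, h.J_eq]; rfl
    rw [h2]
    exact Imm.PL_chart (N.isChart q) (N.mem q) v
  ext1 w
  refine ext_inner_right ℝ fun w' => ?_
  rw [← h.PL w, M.PL_symm, N.PL_symm, h1, M.PL_symm]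

theorem Loc.diffAt_iso (h : Loc N M j q) {F : Type} [NormedAddCommGroup F] [NormedSpace ℝ F]
    {f : X → F} (hf : N.DiffAt (fun q => f (j q)) q) : M.DiffAt f (j q) := by
  have hn : (∞ : WithTop ℕ∞) ≠ 0 := by simp
  have h1 : HasStrictFDerivAt (M.ch (j q) ∘ j ∘ (N.ch q).symm)
      ((fderiv ℝ (M.ch (j q) ∘ j ∘ (N.ch q).symm) (N.ch q q)).toContinuousLinearEquivOfDetNeZero
        (det_ne_zero_of_inj h.inj_j) : E (Fin d) →L[ℝ] E (Fin d)) (N.ch q q) := by
    rw [ContinuousLinearMap.coe_toContinuousLinearEquivOfDetNeZero]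
    exact h.smooth_j.hasStrictFDerivAt hn
  have h2 := h1.to_localInverse.differentiableAt
  have h3 : DifferentiableAt ℝ ((fun q => f (j q)) ∘ (N.ch q).symm)
      (h1.localInverse _ _ _ ((M.ch (j q) ∘ j ∘ (N.ch q).symm) (N.ch q q))) := by
    rw [h1.localInverse_apply_image]; exact hf
  have h4 := (h3.comp _ h2).congr_of_eventuallyEq (f₁ := f ∘ (M.ch (j q)).symm) (by
    filter_upwards [h1.eventually_right_inverse, h1.localInverse_tendsto.eventually (h.chart_eq f)]
      with y hy hy'
    rw [comp_apply (f := (fun q => f (j q)) ∘ (N.ch q).symm), hy',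
      comp_apply (f := f ∘ (M.ch (j q)).symm), hy])
  rwa [Loc.j_apply] at h4

theorem Loc.td_iso (h : Loc N M j q) {F : Type} [NormedAddCommGroup F] [NormedSpace ℝ F]
    (f : X → F) : N.td (fun q => f (j q)) q = M.td f (j q) := by
  by_cases hf : M.DiffAt f (j q)
  · ext1 w
    rw [h.td hf, h.PL_iso, Imm.td_PL]
  · rw [Imm.td, Imm.td, fderiv_zero_of_not_differentiableAt hf,
      fderiv_zero_of_not_differentiableAt fun h' => hf (h.diffAt_iso h')]
    simp

variable [DecidableEq ι]

theorem Loc.D_iso (h : Loc N M j q) (f : X → ℝ) (a : ι) :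
    N.pre.D a (fun q => f (j q)) q = M.pre.D a f (j q) :=
  congrArg (fun T : E ι →L[ℝ] ℝ => T (ee a)) (h.td_iso f)

theorem Loc.gam_iso (h : Loc N M j q) (f g : X → ℝ) :
    N.pre.gam (fun q => f (j q)) (fun q => g (j q)) q = M.pre.gam f g (j q) := by
  simp only [Imm.gam_apply, h.D_iso]

theorem Loc.P_iso (h : Loc N M j q) (a b : ι) : N.pre.P a b q = M.pre.P a b (j q) := by
  rw [Imm.P_apply, Imm.P_apply, h.PL_iso]

theorem Loc.DD_iso (h : Loc N M j q) (f : X → ℝ) (a b : ι) :
    N.pre.D a (N.pre.D b fun q => f (j q)) q = M.pre.D a (M.pre.D b f) (j q) := by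
  rw [← h.D_iso]
  exact Imm.D_congr (h.eventually.mono fun _ hq => hq.D_iso f b) a

theorem Loc.lap_iso (h : Loc N M j q) (f : X → ℝ) :
    N.pre.lap (fun q => f (j q)) q = M.pre.lap f (j q) := by
  simp only [Imm.lap_apply, h.DD_iso]

theorem Loc.hess_iso (h : Loc N M j q) (f : X → ℝ) (a b : ι) :
    N.pre.hess (fun q => f (j q)) a b q = M.pre.hess f a b (j q) := by
  simp only [Imm.hess_apply, h.DD_iso, h.P_iso]

theorem Loc.II_iso (h : Loc N M j q) (a b c : ι) : N.pre.II a b c q = M.pre.II a b c (j q) := by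
  rw [Pre.II, Pre.II, ← h.hess_iso]
  exact Imm.hess_congr (h.x_eq.mono fun _ hq => congrArg (fun v : E ι => v c) hq) a b


theorem Loc.scal_iso (h : Loc N M j q) : N.pre.scal q = M.pre.scal (j q) := by
  simp only [Pre.scal, Pre.Ric, Pre.Rm, Finset.sum_apply, Pi.sub_apply, Pi.mul_apply, h.II_iso]

theorem Loc.cost_iso [MeasurableSpace X] [MeasurableSpace Y] (h : Loc N M j q) (om a : X → ℝ) :
    N.cost (fun q => om (j q)) (fun q => a (j q)) q = M.cost om a (j q) := by
  simp only [Imm.cost, h.D_iso a, h.D_iso fun p => om p ^ 2]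

/-- pull-back of functions -/
def pull (j : Y → X) : (X → ℝ) →+* (Y → ℝ) := RingHom.pi fun q => Pi.evalRingHom _ (j q)

@[simp] theorem pull_apply (j : Y → X) (f : X → ℝ) (q : Y) : pull j f q = f (j q) := rfl

/-- a global local isometry transports every expression of `G/Defs` -/
theorem hom_iso (h : ∀ q, Loc N M j q) : M.pre.Hom N.pre (pull j) where
  x a := funext fun q => by
    change M.x (j q) a = N.x q a
    rw [(h q).self_of_nhds.2]
  D a f := funext fun q => ((h q).D_iso f a).symm

omit [DecidableEq ι] in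
theorem IsChart.symm_trans {e : OpenPartialHomeomorph X Y} (hx : ∀ p ∈ e.source, N.x (e p) = M.x p)
    {c : OpenPartialHomeomorph X (E (Fin d))} (hc : IsChart M.x c) :
    IsChart N.x (e.symm.trans c) := by
  exact hc.of_eqOn (fun _ hz => hz.1) fun z hz => hx _ hz.2

omit [DecidableEq ι] in
theorem loc_of_mem {e : OpenPartialHomeomorph X Y} (hx : ∀ p ∈ e.source, N.x (e p) = M.x p)
    {p : X} (hp : p ∈ e.source) : Loc M N e p := by
  filter_upwards [e.open_source.mem_nhds hp] with p' hp'
  exact ⟨e.continuousAt hp', (hx p' hp').symm⟩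

/-- extension by zero along an open embedding -/
def push (e : OpenPartialHomeomorph X Y) (f : X → ℝ) : Y → ℝ :=
  e.target.indicator fun y => f (e.symm y)

theorem push_apply {e : OpenPartialHomeomorph X Y} (f : X → ℝ) {p : X} (hp : p ∈ e.source) :
    push e f (e p) = f p := by
  rw [push, indicator_of_mem (e.map_source hp), e.left_inv hp]

theorem tsupport_push [T2Space Y] {e : OpenPartialHomeomorph X Y} {f : X → ℝ}
    (hf : HasCompactSupport f) (hs : tsupport f ⊆ e.source) :
    tsupport (push e f) = e '' tsupport f := by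
  have h1 : support (push e f) = e '' support f := by
    ext y
    constructor
    · intro hy
      by_cases h : y ∈ e.target
      · refine ⟨e.symm y, ?_, e.right_inv h⟩
        rwa [mem_support, push, indicator_of_mem h] at hy
      · exact absurd (indicator_of_notMem h _) hy
    · rintro ⟨p, hp, rfl⟩
      rwa [mem_support, push_apply f (hs (subset_tsupport f hp))]
  rw [tsupport, h1]
  exact (closure_minimal (image_mono subset_closure)
    (hf.isCompact.image_of_continuousOn (e.continuousOn.mono hs)).isClosed).antisymm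
    (e.continuousOn.mono hs).image_closure

omit [DecidableEq ι] in
theorem Imm.Tst.push [T2Space Y] {e : OpenPartialHomeomorph X Y}
    (hx : ∀ p ∈ e.source, N.x (e p) = M.x p) {f : X → ℝ} (hf : M.Tst f)
    (hs : tsupport f ⊆ e.source) : N.Tst (push e f) := by
  have h1 := tsupport_push hf.cs hs
  refine ⟨Imm.sm_of_charts fun y => ⟨N.ch y, N.isChart y, N.mem y, ?_⟩, ?_⟩
  · by_cases h : y ∈ e.target
    · have h2 : Loc N M e.symm y := loc_of_mem (e := e.symm)
        (fun y hy => by rw [← hx _ (e.map_target hy), e.right_inv hy]) h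
      refine (h2.contDiffAt hf.sm).congr_of_eventuallyEq (symm_eventuallyEq (N.mem y) ?_)
      filter_upwards [e.open_target.mem_nhds h] with y' hy'
      exact indicator_of_mem hy' _
    · have h2 : y ∉ tsupport (N222.push e f) := by
        rw [h1]
        rintro ⟨p, hp, rfl⟩
        exact h (e.map_source (hs hp))
      exact (contDiffAt_const (c := 0)).congr_of_eventuallyEq
        (symm_eventuallyEq (N.mem y) (notMem_tsupport_iff_eventuallyEq.1 h2))
  · rw [HasCompactSupport, h1]
    exact hf.cs.isCompact.image_of_continuousOn (e.continuousOn.mono hs)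

variable [T2Space X] [SecondCountableTopology X] [MeasurableSpace X] [BorelSpace X]
  [T2Space Y] [SecondCountableTopology Y] [MeasurableSpace Y] [BorelSpace Y]

omit [DecidableEq ι] in
theorem map_restrict_source (e : OpenPartialHomeomorph X Y) (μ : Measure X) :
    (μ.restrict e.source).map e = (Measure.comap (↑) μ).map (e.source.domRestrict e) := by
  rw [← map_comap_subtype_coe e.open_source.measurableSet,
    AEMeasurable.map_map_of_aemeasurable (by
      rw [map_comap_subtype_coe e.open_source.measurableSet]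
      exact e.continuousOn.aemeasurable e.open_source.measurableSet)
    measurable_subtype_coe.aemeasurable]
  rfl

omit [DecidableEq ι] in
theorem mu_iso {e : OpenPartialHomeomorph X Y} (hx : ∀ p ∈ e.source, N.x (e p) = M.x p) :
    N.mu.restrict e.target = (M.mu.restrict e.source).map e := by
  have hm : AEMeasurable e (M.mu.restrict e.source) :=
    e.continuousOn.aemeasurable e.open_source.measurableSet
  have h1 : ((M.mu.restrict e.source).map e).restrict e.target = (M.mu.restrict e.source).map e :=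
    Measure.restrict_eq_self_of_ae_mem ((ae_map_iff hm e.open_target.measurableSet).2
      ((ae_restrict_mem e.open_source.measurableSet).mono fun p hp => e.map_source hp))
  obtain ⟨t, -, htc, ht⟩ := TopologicalSpace.countable_cover_nhdsWithin (s := e.target)
    (f := fun y => (e.symm.trans (M.ch (e.symm y))).source) fun y hy =>
      mem_nhdsWithin_of_mem_nhds ((e.symm.trans _).open_source.mem_nhds ⟨hy, M.mem _⟩)
  have h2 : e.target = ⋃ y ∈ t, (e.symm.trans (M.ch (e.symm y))).source :=
    ht.antisymm (iUnion₂_subset fun y _ z hz => hz.1)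
  rw [← h1, h2, Measure.restrict_biUnion_congr htc]
  intro y _
  set c := M.ch (e.symm y)
  have hc : IsChart M.x c := M.isChart _
  have hc1 := hc.symm_trans hx
  have hc2 := hc.restr e.open_source
  have hV := (e.symm.trans c).open_source.measurableSet
  refine Measure.ext_of_lintegral _ fun f hf => ?_
  rw [Imm.setLIntegral_chart hc1, ← lintegral_indicator hV,
    lintegral_map' (hf.indicator hV).aemeasurable hm]
  have h3 : ∫⁻ p in e.source, (e.symm.trans c).source.indicator f (e p) ∂M.mu =
      ∫⁻ p in (c.restrOpen e.source e.open_source).source, f (e p) ∂M.mu := by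
    rw [setLIntegral_congr_fun (g := c.source.indicator fun p => f (e p))
      e.open_source.measurableSet, lintegral_indicator c.open_source.measurableSet,
      Measure.restrict_restrict c.open_source.measurableSet]
    · rfl
    · intro p hp
      by_cases h : p ∈ c.source
      · rw [indicator_of_mem h]
        exact indicator_of_mem (show e p ∈ (e.symm.trans c).source from ⟨e.map_source hp, by
          change e.symm (e p) ∈ c.source
          rwa [e.left_inv hp]⟩) f
      · rw [indicator_of_notMem h]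
        refine indicator_of_notMem (fun h' => h ?_) f
        have h4 : e.symm (e p) ∈ c.source := h'.2
        rwa [e.left_inv hp] at h4
  rw [h3, Imm.setLIntegral_chart hc2]
  refine setLIntegral_congr_fun (e.symm.trans c).open_target.measurableSet fun z hz => ?_
  have h5 : N.x ∘ (e.symm.trans c).symm =ᶠ[𝓝 z] M.x ∘ c.symm :=
    eventually_of_mem ((e.symm.trans c).open_target.mem_nhds hz) fun w hw => hx _ hw.2
  simp only [h5.fderiv_eq]
  rfl

omit [DecidableEq ι] in
theorem setIntegral_iso {e : OpenPartialHomeomorph X Y} (hx : ∀ p ∈ e.source, N.x (e p) = M.x p)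
    (g : Y → ℝ) : ∫ y in e.target, g y ∂N.mu = ∫ p in e.source, g (e p) ∂M.mu := by
  rw [mu_iso hx, map_restrict_source, e.isOpenEmbedding_restrict.measurableEmbedding.integral_map,
    ← map_comap_subtype_coe e.open_source.measurableSet,
    (MeasurableEmbedding.subtype_coe e.open_source.measurableSet).integral_map]
  rfl

end Iso

/-! ### constructions -/


/-- pull-back along a local homeomorphism: open subsets, coverings, étale spaces -/
def Imm.comap (M : Imm d ι X) (j : Y → X) (hj : IsLocalHomeomorph j) : Imm d ι Y where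
  x q := M.x (j q)
  ch q := (hj q).choose.trans (M.ch (j q))
  mem q := by
    refine ⟨(hj q).choose_spec.1, ?_⟩
    have := congrFun (hj q).choose_spec.2 q
    change (hj q).choose q ∈ (M.ch (j q)).source
    rw [← this]; exact M.mem _
  isChart q := by
    refine (M.isChart (j q)).of_eqOn (fun _ hz => hz.1) fun z hz => congrArg M.x ?_
    have h := congrFun (hj q).choose_spec.2 ((hj q).choose.symm ((M.ch (j q)).symm z))
    exact h.trans ((hj q).choose.right_inv hz.2)

theorem Imm.loc_comap (M : Imm d ι X) (j : Y → X) (hj : IsLocalHomeomorph j) (q : Y) :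
    Loc (M.comap j hj) M j q := Loc.of_cont hj.continuous (fun _ => rfl) q

/-- open subsets -/
def Imm.opens (M : Imm d ι X) (U : Set X) (hU : IsOpen U) : Imm d ι U :=
  M.comap Subtype.val hU.isOpenEmbedding_subtypeVal.isLocalHomeomorph

/-! ### a constant extra coordinate -/

/-- a constant extra coordinate -/
def Imm.pad (M : Imm d ι X) (c : ℝ) : Imm d (Option ι) X := M.graph (fun _ => c) (Imm.sm_const c)

section Pad

variable [DecidableEq ι] (M : Imm d ι X) (c : ℝ)

theorem Imm.pad_td {Z : Type} [NormedAddCommGroup Z] [NormedSpace ℝ Z] (y : X → Z) (p : X)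
    (w : E (Option ι)) : (M.pad c).td y p w = M.td y p (down w) := by
  let _ : MeasurableSpace X := ⊤
  have h : down (M.nuv (fun _ => c) p) = 0 := by
    ext a
    change -(M.vv (fun _ => c) p * M.pre.D a (fun _ => c) p) = 0
    rw [Imm.D_const]; simp
  rw [Imm.pad, Imm.graph_td, h, smul_zero, sub_zero]

theorem Imm.pad_D_some (a : ι) (f : X → ℝ) : (M.pad c).pre.D (some a) f = M.pre.D a f := by
  funext p
  have h : down (ee (some a)) = ee a := by
    ext b; simp
  change (M.pad c).td f p (ee (some a)) = M.td f p (ee a)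
  rw [M.pad_td, h]

theorem Imm.pad_D_none (f : X → ℝ) : (M.pad c).pre.D none f = 0 := by
  funext p
  have h : down (ee (none : Option ι)) = 0 := by
    ext b; simp
  change (M.pad c).td f p (ee none) = 0
  rw [M.pad_td, h, map_zero]

theorem Imm.pad_gam (f g : X → ℝ) : (M.pad c).pre.gam f g = M.pre.gam f g := by
  simp [Pre.gam, Fintype.sum_option, M.pad_D_some, M.pad_D_none]


theorem Imm.D_zero' (a : ι) : M.pre.D a 0 = 0 := funext fun p => Imm.D_const 0 a p

theorem Imm.pad_P_some (a b : ι) : (M.pad c).pre.P (some a) (some b) = M.pre.P a b :=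
  M.pad_D_some c a _

theorem Imm.pad_P_none (b : Option ι) : (M.pad c).pre.P none b = 0 := M.pad_D_none c _

theorem Imm.pad_hess_some (f : X → ℝ) (a b : ι) :
    (M.pad c).pre.hess f (some a) (some b) = M.pre.hess f a b := by
  simp [Pre.hess, Fintype.sum_option, M.pad_D_some, M.pad_D_none, M.pad_P_some, M.D_zero']

theorem Imm.pad_hess_none (f : X → ℝ) (b : Option ι) : (M.pad c).pre.hess f none b = 0 := by
  simp [Pre.hess, M.pad_D_none]

theorem Imm.pad_hess_none' (f : X → ℝ) (a : Option ι) : (M.pad c).pre.hess f a none = 0 := by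
  simp [Pre.hess, M.pad_P_none]

theorem Imm.pad_II_some (a b k : ι) : (M.pad c).pre.II (some a) (some b) (some k) = M.pre.II a b k :=
  M.pad_hess_some c _ a b

theorem Imm.pad_II_none₁ (b k : Option ι) : (M.pad c).pre.II none b k = 0 := M.pad_hess_none c _ b

theorem Imm.pad_II_none₂ (a k : Option ι) : (M.pad c).pre.II a none k = 0 := M.pad_hess_none' c _ a

theorem Imm.pad_II_none₃ (a b : Option ι) : (M.pad c).pre.II a b none = 0 := by
  have h : ∀ e, (M.pad c).pre.D e ((M.pad c).pre.x none) = 0 := fun e =>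
    funext fun p => Imm.D_const c e p
  simp [Pre.II, Pre.hess, h, (M.pad c).D_zero']

theorem Imm.pad_scal : (M.pad c).pre.scal = M.pre.scal := by
  simp [Pre.scal, Pre.Ric, Pre.Rm, Fintype.sum_option, M.pad_II_some, M.pad_II_none₁,
    M.pad_II_none₂, M.pad_II_none₃]

theorem Imm.pad_cost [MeasurableSpace X] (om a : X → ℝ) : (M.pad c).cost om a = M.cost om a := by
  funext p
  simp [Imm.cost, Fintype.sum_option, M.pad_D_some, M.pad_D_none]

theorem Imm.pad_mu [T2Space X] [SecondCountableTopology X] [MeasurableSpace X] [BorelSpace X] :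
    (M.pad c).mu = M.mu := by
  have h : (fun p => ENNReal.ofReal (M.vv (fun _ => c) p)⁻¹) = 1 := funext fun p => by
    simp [Imm.vv, Imm.gam_apply, Imm.D_const]
  rw [Imm.pad, Imm.graph_mu, Imm.gmu, h, withDensity_one]

end Pad

end Crest.Agent.N222

end
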