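import Crest.Agent.N222.B.Defs

/-!
# Row 222, framework: the kernels `Phi`, `Psi`
(SKELETON: fill in place, statements frozen; add lemmas freely)
-/

set_option autoImplicit false
open MeasureTheory Set Filter Topology Function
open scoped ContDiff

noncomputable section

namespace Crest.Agent.N222

theorem contDiff_Phi : ContDiff ℝ ∞ Phi :=
  Real.smoothTransition.contDiff.comp (contDiff_const.mul (contDiff_const.sub contDiff_id))

@[fun_prop] theorem continuous_Phi : Continuous Phi := contDiff_Phi.continuous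

theorem Phi_nonneg (s : ℝ) : 0 ≤ Phi s := Real.smoothTransition.nonneg _

theorem Phi_le_one (s : ℝ) : Phi s ≤ 1 := Real.smoothTransition.le_one _

theorem Phi_eq_one {s : ℝ} (h : s ≤ 1 / 2) : Phi s = 1 :=
  Real.smoothTransition.one_of_one_le (by linarith)

theorem Phi_eq_zero {s : ℝ} (h : 1 ≤ s) : Phi s = 0 :=
  Real.smoothTransition.zero_of_nonpos (by linarith)


theorem antitone_Phi : Antitone Phi := fun _ _ h =>
  Real.smoothTransition.monotone (by linarith)

theorem hasDerivAt_Phi (s : ℝ) : HasDerivAt Phi (deriv Phi s) s :=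
  (contDiff_Phi.differentiable (by simp) s).hasDerivAt

theorem contDiff_deriv_Phi : ContDiff ℝ ∞ (deriv Phi) :=
  (contDiff_infty_iff_deriv.1 contDiff_Phi).2

@[fun_prop] theorem continuous_deriv_Phi : Continuous (deriv Phi) := contDiff_deriv_Phi.continuous

theorem deriv_Phi_nonpos (s : ℝ) : deriv Phi s ≤ 0 := antitone_Phi.deriv_nonpos

theorem deriv_Phi_eq_zero {s : ℝ} (h : s ≤ 1 / 2 ∨ 1 ≤ s) : deriv Phi s = 0 := by
  rcases h with h | h
  · exact IsLocalMax.deriv_eq_zero (.of_forall fun t => (Phi_le_one t).trans (Phi_eq_one h).ge)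
  · exact IsLocalMin.deriv_eq_zero (.of_forall fun t => (Phi_eq_zero h).le.trans (Phi_nonneg t))


theorem exists_deriv_Phi_le : ∃ C : ℝ, 0 < C ∧ ∀ s, |deriv Phi s| ≤ C := by
  obtain ⟨C, hC⟩ := continuous_deriv_Phi.bounded_above_of_compact_support
    (HasCompactSupport.intro (isCompact_Icc (a := 1 / 2) (b := 1)) fun s hs =>
      deriv_Phi_eq_zero (by
        rw [mem_Icc, not_and_or, not_le, not_le] at hs
        exact hs.imp le_of_lt le_of_lt))
  exact ⟨max C 1, by positivity, fun s => (hC s).trans (le_max_left _ _)⟩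






theorem hasCompactSupport_Phi {V : Type} [NormedAddCommGroup V] [ProperSpace V] (y : V) {r : ℝ}
    (hr : 0 < r) : HasCompactSupport fun z => Phi (‖z - y‖ ^ 2 / r ^ 2) :=
  HasCompactSupport.intro (isCompact_closedBall y r) fun z hz => Phi_eq_zero
    ((one_le_div (by positivity)).2 (pow_le_pow_left₀ hr.le
      (by rw [Metric.mem_closedBall, dist_eq_norm, not_le] at hz; exact hz.le) 2))

theorem Phi_eq_zero_of_le {a r : ℝ} (hr : 0 < r) (h : r ≤ a) : Phi (a ^ 2 / r ^ 2) = 0 :=
  Phi_eq_zero ((one_le_div (by positivity)).2 (by gcongr))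

theorem Phi_eq_one_of_le {a r : ℝ} (hr : 0 < r) (h0 : 0 ≤ a) (h : a ≤ r / 2) :
    Phi (a ^ 2 / r ^ 2) = 1 :=
  Phi_eq_one ((div_le_iff₀ (by positivity)).2 (by nlinarith))

theorem cPhi_pos (d : ℕ) : 0 < cPhi d := by
  have h : HasCompactSupport fun z : E (Fin d) => Phi (‖z‖ ^ 2) := by
    simpa using hasCompactSupport_Phi (0 : E (Fin d)) one_pos
  refine Continuous.integral_pos_of_hasCompactSupport_nonneg_nonzero (x := 0) (by fun_prop) h
    (fun _ => Phi_nonneg _) ?_
  rw [Phi_eq_one (by simp)]; exact one_ne_zero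


end Crest.Agent.N222

end
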