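import Crest.Agent.N222.F.Res
import Crest.Agent.N222.F.Bump

/-!
# Row 222, framework: compact embedded manifolds
(statements by helper10, proofs by helper6)
-/

set_option autoImplicit false
set_option linter.unusedSectionVars false
open MeasureTheory Set Filter Topology Function
open scoped ContDiff InnerProductSpace RealInnerProductSpace

noncomputable section

namespace Crest.Agent.N222.Imm

variable {d : ℕ} {ι : Type} [Fintype ι] {X : Type} [TopologicalSpace X] [T2Space X]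
  [CompactSpace X] {M : Imm d ι X} {F : Type} [NormedAddCommGroup F] [NormedSpace ℝ F]

theorem isClosedEmbedding_x (hM : Injective M.x) : IsClosedEmbedding M.x :=
  M.continuous_x.isClosedEmbedding hM

/-- extrinsic balls are a neighbourhood basis -/
theorem mem_nhds_iff_ball (hM : Injective M.x) {p : X} {N : Set X} :
    N ∈ 𝓝 p ↔ ∃ r > 0, ∀ q, ‖M.x q - M.x p‖ < r → q ∈ N := by
  rw [(isClosedEmbedding_x hM).isInducing.nhds_eq_comap, (Metric.nhds_basis_ball.comap _).mem_iff]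
  simp only [subset_def, mem_preimage, mem_ball_iff_norm, gt_iff_lt]

theorem tendsto_iff_x (hM : Injective M.x) {α : Type*} {l : Filter α} {q : α → X} {p : X} :
    Tendsto q l (𝓝 p) ↔ Tendsto (fun j => M.x (q j)) l (𝓝 (M.x p)) :=
  (isClosedEmbedding_x hM).isEmbedding.tendsto_nhds_iff

/-- Lebesgue number -/
theorem exists_lebesgue (hM : Injective M.x) {K : Set X} (hK : IsCompact K) {κ : Type*}
    (U : κ → Set X) (hU : ∀ k, IsOpen (U k)) (h : K ⊆ ⋃ k, U k) :
    ∃ r > 0, ∀ p ∈ K, ∃ k, ∀ q, ‖M.x q - M.x p‖ < r → q ∈ U k := by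
  choose V hV e using fun k => (isClosedEmbedding_x hM).isInducing.isOpen_iff.1 (hU k)
  obtain ⟨r, hr, H⟩ := lebesgue_number_lemma_of_metric (hK.image M.continuous_x) hV (by
    rintro _ ⟨p, hp, rfl⟩
    obtain ⟨k, hk⟩ := mem_iUnion.1 (h hp)
    exact mem_iUnion.2 ⟨k, by rwa [← e k] at hk⟩)
  refine ⟨r, hr, fun p hp => (H _ ⟨p, hp, rfl⟩).imp fun k hk q hq => ?_⟩
  rw [← e k]
  exact hk (mem_ball_iff_norm.2 hq)

omit [T2Space X] in
theorem exists_bound {f : X → F} (hf : Continuous f) : ∃ C : ℝ, 0 < C ∧ ∀ p, ‖f p‖ ≤ C :=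
  let ⟨C, h0, h⟩ := (isCompact_range hf).isBounded.exists_pos_norm_le
  ⟨C, h0, fun p => h _ ⟨p, rfl⟩⟩

/-- a closed ball in the preferred chart on which `x` is almost linear -/
structure Good (M : Imm d ι X) (p : X) (ρ m : ℝ) : Prop where
  ρ0 : 0 < ρ
  m0 : 0 < m
  sub : Metric.closedBall (M.ch p p) ρ ⊆ (M.ch p).target
  low : ∀ v, m * ‖v‖ ≤ ‖M.J p v‖
  near : ∀ z ∈ Metric.closedBall (M.ch p p) ρ,
    ‖fderiv ℝ (M.x ∘ (M.ch p).symm) z - M.J p‖ ≤ m / 3

theorem exists_good (M : Imm d ι X) (p : X) : ∃ ρ m, M.Good p ρ m := by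
  obtain ⟨K, hK, h⟩ := (M.J p : E (Fin d) →ₗ[ℝ] E ι).exists_antilipschitzWith
    (LinearMap.ker_eq_bot.2 (M.J_inj p))
  have hK' : (0 : ℝ) < K := hK
  have ht := (M.ch p).open_target.mem_nhds ((M.ch p).map_source (M.mem p))
  have hc : ContinuousAt (fderiv ℝ (M.x ∘ (M.ch p).symm)) (M.ch p p) :=
    ((M.isChart p).sm.continuousOn_fderiv_of_isOpen (M.ch p).open_target (by simp)).continuousAt ht
  obtain ⟨ρ, hρ, H⟩ := Metric.nhds_basis_closedBall.mem_iff.1 (inter_mem ht
    (hc (Metric.closedBall_mem_nhds _ (by positivity : 0 < (K : ℝ)⁻¹ / 3))))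
  refine ⟨ρ, K⁻¹, hρ, by positivity, fun z hz => (H hz).1, fun v => ?_,
    fun z hz => mem_closedBall_iff_norm.1 (H hz).2⟩
  rw [inv_mul_le_iff₀ hK']
  exact ZeroHomClass.bound_of_antilipschitz _ h v

namespace Good
variable {p : X} {ρ m : ℝ} (h : M.Good p ρ m) {z w : E (Fin d)}
include h

theorem approx (hz : z ∈ Metric.closedBall (M.ch p p) ρ) (hw : w ∈ Metric.closedBall (M.ch p p) ρ) :
    ‖M.x ((M.ch p).symm z) - M.x ((M.ch p).symm w) - M.J p (z - w)‖ ≤ ‖M.J p (z - w)‖ / 3 := by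
  have h1 := (convex_closedBall _ ρ).norm_image_sub_le_of_norm_fderiv_le'
    (fun y hy => ((M.isChart p).hasFDerivAt (h.sub hy)).differentiableAt) h.near hw hz
  have h2 := h.low (z - w)
  simp only [comp_apply] at h1
  linarith

theorem le (hz : z ∈ Metric.closedBall (M.ch p p) ρ) (hw : w ∈ Metric.closedBall (M.ch p p) ρ) :
    ‖M.x ((M.ch p).symm z) - M.x ((M.ch p).symm w)‖ ≤ 4 / 3 * ‖M.J p (z - w)‖ := by
  have h1 := h.approx hz hw
  have h2 := norm_sub_norm_le (M.x ((M.ch p).symm z) - M.x ((M.ch p).symm w)) (M.J p (z - w))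
  linarith

theorem ge (hz : z ∈ Metric.closedBall (M.ch p p) ρ) (hw : w ∈ Metric.closedBall (M.ch p p) ρ) :
    ‖M.J p (z - w)‖ ≤ 3 / 2 * ‖M.x ((M.ch p).symm z) - M.x ((M.ch p).symm w)‖ := by
  have h1 := h.approx hz hw
  have h2 := norm_sub_norm_le (M.J p (z - w)) (M.x ((M.ch p).symm z) - M.x ((M.ch p).symm w))
  rw [norm_sub_rev] at h1
  linarith

theorem fd_le (hz : z ∈ Metric.closedBall (M.ch p p) ρ) (v : E (Fin d)) :
    ‖fderiv ℝ (M.x ∘ (M.ch p).symm) z v‖ ≤ 4 / 3 * ‖M.J p v‖ := by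
  have h1 := (fderiv ℝ (M.x ∘ (M.ch p).symm) z - M.J p).le_of_opNorm_le (h.near z hz) v
  have h2 := h.low v
  have h3 := norm_sub_norm_le (fderiv ℝ (M.x ∘ (M.ch p).symm) z v) (M.J p v)
  rw [sub_apply] at h1
  linarith

theorem nhds {r : ℝ} (hr : 0 < r) :
    (M.ch p).source ∩ M.ch p ⁻¹' Metric.ball (M.ch p p) r ∈ 𝓝 p :=
  have _ := h
  ((M.ch p).isOpen_inter_preimage Metric.isOpen_ball).mem_nhds ⟨M.mem p, Metric.mem_ball_self hr⟩

theorem contOn_jac : ContinuousOn (fun z => jac (fderiv ℝ (M.x ∘ (M.ch p).symm) z))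
    (Metric.closedBall (M.ch p p) ρ) := fun z hz =>
  (contDiffAt_jac ((M.isChart p).inj z (h.sub hz))).continuousAt.comp_continuousWithinAt
    ((((M.isChart p).sm.continuousOn_fderiv_of_isOpen (M.ch p).open_target (by simp)).mono h.sub)
      z hz)

end Good

/-- uniform mean value inequality -/
theorem exists_mvt (hM : Injective M.x) : ∃ r0 : ℝ, 0 < r0 ∧ ∀ (f : X → F) (p q : X) (r L : ℝ),
    r ≤ r0 → ‖M.x q - M.x p‖ < r →
    (∀ q', ‖M.x q' - M.x p‖ < 2 * r → M.DiffAt f q' ∧ ‖M.td f q'‖ ≤ L) →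
    ‖f q - f p‖ ≤ 2 * L * ‖M.x q - M.x p‖ := by
  choose ρ m h using M.exists_good
  obtain ⟨r0, h0, H⟩ := exists_lebesgue hM isCompact_univ
    (fun p => (M.ch p).source ∩ M.ch p ⁻¹' Metric.ball (M.ch p p) (ρ p))
    (fun p => (M.ch p).isOpen_inter_preimage Metric.isOpen_ball)
    fun p _ => mem_iUnion.2 ⟨p, mem_of_mem_nhds ((h p).nhds (h p).ρ0)⟩
  refine ⟨r0, h0, fun f p q r L hr hq hf => ?_⟩
  obtain ⟨a, ha⟩ := H p (mem_univ p)
  obtain ⟨p1, p2⟩ := ha p (by simpa using h0)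
  obtain ⟨q1, q2⟩ := ha q (hq.trans_le hr)
  replace p2 := Metric.ball_subset_closedBall p2
  replace q2 := Metric.ball_subset_closedBall q2
  set e := M.ch a
  set v := e q - e p with hv
  have k1 := (h a).ge q2 p2
  rw [e.left_inv p1, e.left_inv q1] at k1
  have hL : 0 ≤ L := (norm_nonneg _).trans
    (hf p (by rw [sub_self, norm_zero]; linarith [norm_nonneg (M.x q - M.x p)])).2
  have hm : ∀ t ∈ Icc (0 : ℝ) 1, e p + t • v ∈ Metric.closedBall (e a) (ρ a) := fun t ht =>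
    (convex_closedBall _ _).add_smul_sub_mem p2 q2 ht
  have hd : ∀ t ∈ Icc (0 : ℝ) 1, M.DiffAt f (e.symm (e p + t • v)) ∧
      ‖M.td f (e.symm (e p + t • v))‖ ≤ L := fun t ht => hf _ (by
    have k2 := (h a).le (hm t ht) p2
    rw [e.left_inv p1, add_sub_cancel_left, map_smul, norm_smul, Real.norm_of_nonneg ht.1] at k2
    nlinarith [mul_le_of_le_one_left (norm_nonneg (M.J a v)) ht.2])
  have key := norm_image_sub_le_of_norm_deriv_le_segment_01'
    (f := fun t : ℝ => (f ∘ e.symm) (e p + t • v))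
    (f' := fun t => fderiv ℝ (f ∘ e.symm) (e p + t • v) v) (C := L * (4 / 3 * ‖M.J a v‖))
    (fun t ht => by
      have k2 := (diffAt_chart (M.isChart a) (e.map_target ((h a).sub (hm t ht)))).1 (hd t ht).1
      rw [e.right_inv ((h a).sub (hm t ht))] at k2
      have k3 : HasDerivAt (fun t : ℝ => e p + t • v) v t := by
        simpa using ((hasDerivAt_id t).smul_const v).const_add (e p)
      exact (k2.hasFDerivAt.comp_hasDerivAt t k3).hasDerivWithinAt)
    fun t ht => by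
      have ht' := Ico_subset_Icc_self ht
      have k2 := fderiv_chart f (M.isChart a) (e.map_target ((h a).sub (hm t ht')))
      rw [e.right_inv ((h a).sub (hm t ht'))] at k2
      rw [k2]
      exact (ContinuousLinearMap.le_of_opNorm_le _ (hd t ht').2 _).trans
        (mul_le_mul_of_nonneg_left ((h a).fd_le (hm t ht') v) hL)
  simp only [comp_apply, one_smul, zero_smul, add_zero, hv, add_sub_cancel, e.left_inv p1,
    e.left_inv q1] at key
  nlinarith [mul_le_mul_of_nonneg_left k1 hL]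

/-- smooth functions are Lipschitz for the extrinsic distance -/
theorem Sm.exists_lip (hM : Injective M.x) {f : X → F} (hf : M.Sm f) :
    ∃ C : ℝ, 0 < C ∧ ∀ p q, ‖f p - f q‖ ≤ C * ‖M.x p - M.x q‖ := by
  obtain ⟨r0, h0, H⟩ := exists_mvt (F := F) hM
  obtain ⟨B, hB, h1⟩ := exists_bound hf.continuous
  obtain ⟨L, hL, h2⟩ := exists_bound hf.td.continuous
  refine ⟨2 * L + 2 * B / r0, by positivity, fun p q => ?_⟩
  have h3 := norm_nonneg (M.x p - M.x q)
  rcases lt_or_ge ‖M.x p - M.x q‖ r0 with h | h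
  · refine (H f q p r0 L le_rfl h fun q' _ => ⟨hf.diffAt q', h2 q'⟩).trans ?_
    gcongr
    exact le_add_of_nonneg_right (by positivity)
  · have h4 : 2 * B ≤ 2 * B / r0 * ‖M.x p - M.x q‖ := by
      rw [div_mul_eq_mul_div, le_div_iff₀ h0]
      gcongr
    have h5 := norm_sub_le (f p) (f q)
    nlinarith [h1 p, h1 q, mul_nonneg hL.le h3]

/-- Taylor expansion of first order -/
theorem Sm.exists_taylor (hM : Injective M.x) {f : X → F} (hf : M.Sm f) :
    ∃ C : ℝ, 0 < C ∧ ∀ p q, ‖f q - f p - M.td f p (M.x q - M.x p)‖ ≤ C * ‖M.x q - M.x p‖ ^ 2 := by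
  obtain ⟨r0, h0, H⟩ := exists_mvt (F := F) hM
  obtain ⟨B, hB, h1⟩ := hf.exists_lip hM
  obtain ⟨L, hL, h2⟩ := exists_bound hf.td.continuous
  obtain ⟨C, hC, h3⟩ := hf.td.exists_lip hM
  refine ⟨8 * C + 2 * (B + L) / r0, by positivity, fun p q => ?_⟩
  set s := ‖M.x q - M.x p‖ with hs
  rcases (norm_nonneg (M.x q - M.x p)).eq_or_lt with h | s0
  · obtain rfl : q = p := hM (sub_eq_zero.1 (norm_eq_zero.1 h.symm))
    simp [hs]
  rcases le_or_gt (2 * s) r0 with h | h
  · let T : F × E ι →L[ℝ] F := ContinuousLinearMap.fst ℝ _ _ - M.td f p ∘L ContinuousLinearMap.snd ℝ _ _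
    have h4 := H (fun q => T (f q, M.x q)) p q (2 * s) (4 * C * s) h (by linarith) fun q' hq' => by
      have d1 := (hf.diffAt q').prodMk (M.sm_x.diffAt q')
      refine ⟨d1.comp T.differentiableAt, ContinuousLinearMap.opNorm_le_bound _ (by positivity)
        fun w => ?_⟩
      rw [td_comp d1 T.differentiableAt, td_prodMk (hf.diffAt q') (M.sm_x.diffAt q'), T.fderiv]
      have e : (T ∘L (M.td f q').prod (M.td M.x q')) w = (M.td f q' - M.td f p) (M.PL q' w) := by
        rw [sub_apply, td_PL]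
        rfl
      rw [e]
      refine (ContinuousLinearMap.le_of_opNorm_le _ (h3 q' p) _).trans
        (mul_le_mul ?_ (M.norm_PL_le q' w) (norm_nonneg _) (by positivity))
      nlinarith
    have e : T (f q, M.x q) - T (f p, M.x p) = f q - f p - M.td f p (M.x q - M.x p) := by
      rw [← map_sub]
      rfl
    rw [e] at h4
    refine h4.trans ?_
    have : 0 ≤ 2 * (B + L) / r0 * s ^ 2 := by positivity
    nlinarith
  · have h4 := norm_sub_le (f q - f p) (M.td f p (M.x q - M.x p))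
    have h5 := (M.td f p).le_of_opNorm_le (h2 p) (M.x q - M.x p)
    have h6 : (B + L) * s ≤ 2 * (B + L) / r0 * s ^ 2 := by
      rw [div_mul_eq_mul_div, le_div_iff₀ h0]
      nlinarith [mul_pos (add_pos hB hL) s0]
    have : 0 ≤ 8 * C * s ^ 2 := by positivity
    nlinarith [h1 q p]

/-- chords are almost tangential -/
theorem exists_perp_le (hM : Injective M.x) : ∃ C : ℝ, 0 < C ∧ ∀ p q,
    ‖M.x q - M.x p - M.PL p (M.x q - M.x p)‖ ≤ C * ‖M.x q - M.x p‖ ^ 2 :=
  M.sm_x.exists_taylor hM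

variable [SecondCountableTopology X] [MeasurableSpace X] [BorelSpace X]

theorem exists_mu_ball_le (hM : Injective M.x) : ∃ C : ℝ, 0 < C ∧ ∀ (y : E ι) (r : ℝ), 0 < r →
    M.mu.real {p | ‖M.x p - y‖ ≤ r} ≤ C * r ^ d := by
  have hm : ∀ (y : E ι) (r : ℝ), MeasurableSet {p | ‖M.x p - y‖ ≤ r} := fun y r =>
    (isClosed_le (M.continuous_x.sub continuous_const).norm continuous_const).measurableSet
  obtain ⟨C, r0, hC, h0, H⟩ : ∃ C r0 : ℝ, 0 ≤ C ∧ 0 < r0 ∧ ∀ p ∈ (univ : Set X), ∀ r, 0 < r → r < r0 →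
      M.mu.real {q | ‖M.x q - M.x p‖ ≤ r} ≤ C * r ^ d := by
    refine isCompact_univ.induction_on (p := fun s => ∃ C r0 : ℝ, 0 ≤ C ∧ 0 < r0 ∧ ∀ p ∈ s, ∀ r,
      0 < r → r < r0 → M.mu.real {q | ‖M.x q - M.x p‖ ≤ r} ≤ C * r ^ d)
      ⟨0, 1, le_rfl, one_pos, by simp⟩
      (fun s t hst ⟨C, r0, h1, h2, h3⟩ => ⟨C, r0, h1, h2, fun p hp => h3 p (hst hp)⟩)
      (fun s t ⟨C, r0, h1, h2, h3⟩ ⟨C', r0', k1, k2, k3⟩ => ⟨C + C', min r0 r0', by positivity,
        lt_min h2 k2, fun p hp r hr hr' => ?_⟩) fun a _ => ?_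
    · rcases hp with hp | hp
      · refine (h3 p hp r hr (hr'.trans_le (min_le_left _ _))).trans ?_
        gcongr
        linarith
      · refine (k3 p hp r hr (hr'.trans_le (min_le_right _ _))).trans ?_
        gcongr
        linarith
    obtain ⟨ρ, m, h⟩ := M.exists_good a
    have m0 := h.m0
    obtain ⟨δ, hδ, h1⟩ := (mem_nhds_iff_ball hM).1 (h.nhds h.ρ0)
    obtain ⟨K, hK⟩ := (isCompact_closedBall _ _).exists_bound_of_continuousOn h.contOn_jac
    have K0 : 0 ≤ K := (norm_nonneg _).trans (hK _ (Metric.mem_closedBall_self h.ρ0.le))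
    refine ⟨{p | ‖M.x p - M.x a‖ < δ / 2}, mem_nhdsWithin_of_mem_nhds
      ((mem_nhds_iff_ball hM).2 ⟨δ / 2, by positivity, fun _ h => h⟩),
      K * ((3 / (2 * m)) ^ d * volume.real (Metric.ball (0 : E (Fin d)) 1)), δ / 2, by positivity,
      by positivity, fun p hp r hr hr' => ?_⟩
    have hp' : ‖M.x p - M.x a‖ < δ / 2 := hp
    have h2 : ∀ q, ‖M.x q - M.x p‖ ≤ r → q ∈ (M.ch a).source ∧
        M.ch a q ∈ Metric.closedBall (M.ch a a) ρ := fun q hq =>
      (h1 q (by linarith [norm_sub_le_norm_sub_add_norm_sub (M.x q) (M.x p) (M.x a)])).imp_right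
        fun h => Metric.ball_subset_closedBall h
    have h3 := h2 p (by simpa using hr.le)
    have h4 : M.ch a '' {q | ‖M.x q - M.x p‖ ≤ r} ⊆ Metric.closedBall (M.ch a p) (3 / (2 * m) * r) ∩
        Metric.closedBall (M.ch a a) ρ := by
      rintro _ ⟨q, hq, rfl⟩
      refine ⟨mem_closedBall_iff_norm.2 ?_, (h2 q hq).2⟩
      have k1 := (h.low _).trans (h.ge (h2 q hq).2 h3.2)
      rw [(M.ch a).left_inv h3.1, (M.ch a).left_inv (h2 q hq).1] at k1
      have hq' : ‖M.x q - M.x p‖ ≤ r := hq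
      rw [div_mul_eq_mul_div, le_div_iff₀ (by positivity)]
      linarith
    refine ENNReal.toReal_le_of_le_ofReal (by positivity) ?_
    rw [mu_chart (s := {q | ‖M.x q - M.x p‖ ≤ r}) (M.isChart a) (fun q hq => (h2 q hq).1) (hm _ _)]
    refine (lintegral_mono_set h4).trans ((setLIntegral_mono' (g := fun _ => ENNReal.ofReal K)
      (Metric.isClosed_closedBall.inter Metric.isClosed_closedBall).measurableSet fun z hz =>
        ENNReal.ofReal_le_ofReal ((le_abs_self _).trans (hK z hz.2))).trans ?_)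
    rw [setLIntegral_const, mul_assoc, ENNReal.ofReal_mul K0]
    gcongr
    refine (measure_mono inter_subset_left).trans_eq ?_
    rw [mul_right_comm, ← mul_pow, ENNReal.ofReal_mul (by positivity),
      ofReal_measureReal measure_ball_lt_top.ne, Measure.addHaar_closedBall _ _ (by positivity),
      finrank_euclideanSpace_fin]
  refine ⟨C * 2 ^ d + M.mu.real univ / (r0 / 2) ^ d + 1, by positivity, fun y r hr => ?_⟩
  have h1 : 0 ≤ C * 2 ^ d * r ^ d := by positivity
  have h2 : 0 ≤ M.mu.real univ / (r0 / 2) ^ d * r ^ d := by positivity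
  have h3 : 0 ≤ r ^ d := by positivity
  rcases lt_or_ge (2 * r) r0 with h | h
  · rcases eq_empty_or_nonempty {p | ‖M.x p - y‖ ≤ r} with e | ⟨p, hp⟩
    · rw [e, measureReal_empty]
      positivity
    have h4 := H p (mem_univ p) (2 * r) (by positivity) h
    have h5 : M.mu.real {p | ‖M.x p - y‖ ≤ r} ≤ M.mu.real {q | ‖M.x q - M.x p‖ ≤ 2 * r} :=
      measureReal_mono fun q hq => by
        have k1 : ‖M.x q - y‖ ≤ r := hq
        have k2 : ‖M.x p - y‖ ≤ r := hp
        have k3 := norm_sub_le_norm_sub_add_norm_sub (M.x q) y (M.x p)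
        rw [norm_sub_rev y] at k3
        exact k3.trans (by linarith)
    rw [mul_pow] at h4
    nlinarith
  · have h4 : M.mu.real univ ≤ M.mu.real univ / (r0 / 2) ^ d * r ^ d := by
      rw [div_mul_eq_mul_div, le_div_iff₀ (by positivity)]
      gcongr
      linarith
    have h5 : M.mu.real {p | ‖M.x p - y‖ ≤ r} ≤ M.mu.real univ := measureReal_mono (subset_univ _)
    nlinarith


end Crest.Agent.N222.Imm

end
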