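import Crest.Agent.N222.F.Basic
import Crest.Agent.N222.F.Hess

-- ▼ part N222/F/Meas0
section

/-!
# Row 222, framework: the chart measures and their gluing (helper88)
-/

set_option autoImplicit false
set_option linter.unusedSectionVars false
open MeasureTheory Set Filter Topology Function
open scoped ContDiff ENNReal

noncomputable section

namespace Crest.Agent.N222.Ms0

variable {d : ℕ} {ι : Type} [Fintype ι] {X : Type} [TopologicalSpace X]
  [MeasurableSpace X] [BorelSpace X] {x : X → E ι}
  {e e' : OpenPartialHomeomorph X (E (Fin d))}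

theorem jac_nonneg (J : E (Fin d) →L[ℝ] E ι) : 0 ≤ jac J := Real.sqrt_nonneg _

theorem contOn_jac (he : IsChart x e) :
    ContinuousOn (fun z => jac (fderiv ℝ (x ∘ e.symm) z)) e.target := fun z hz =>
  (contDiffAt_jac (he.inj z hz)).continuousAt.comp_continuousWithinAt
    (he.sm.continuousOn_fderiv_of_isOpen e.open_target (by simp) z hz)

theorem aem_rho (he : IsChart x e) :
    AEMeasurable (fun z => ENNReal.ofReal (jac (fderiv ℝ (x ∘ e.symm) z)))
      (volume.restrict e.target) :=
  ((contOn_jac he).aemeasurable e.open_target.measurableSet).ennreal_ofReal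

theorem memb (e : OpenPartialHomeomorph X (E (Fin d))) :
    MeasurableEmbedding (e.target.domRestrict e.symm) :=
  e.symm.isOpenEmbedding_restrict.measurableEmbedding

/-- the measure on the model space -/
def mu0 (x : X → E ι) (e : OpenPartialHomeomorph X (E (Fin d))) : Measure (E (Fin d)) :=
  (volume.restrict e.target).withDensity fun z => ENNReal.ofReal (jac (fderiv ℝ (x ∘ e.symm) z))

theorem mu0_restrict (x : X → E ι) (e : OpenPartialHomeomorph X (E (Fin d))) :
    (mu0 x e).restrict e.target = mu0 x e := by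
  rw [mu0, restrict_withDensity e.open_target.measurableSet,
    Measure.restrict_restrict e.open_target.measurableSet, inter_self]

theorem map_coe (x : X → E ι) (e : OpenPartialHomeomorph X (E (Fin d))) :
    (Measure.comap (↑) (mu0 x e)).map ((↑) : e.target → E (Fin d)) = mu0 x e := by
  rw [map_comap_subtype_coe e.open_target.measurableSet, mu0_restrict]

theorem cm_eq (x : X → E ι) (e : OpenPartialHomeomorph X (E (Fin d))) :
    chartMeas x e = (Measure.comap (↑) (mu0 x e)).map (e.target.domRestrict e.symm) := by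
  have h1 : chartMeas x e = (mu0 x e).map e.symm := rfl
  have h2 : AEMeasurable e.symm (mu0 x e) := by
    rw [← mu0_restrict]
    exact e.continuousOn_symm.aemeasurable e.open_target.measurableSet
  rw [h1]
  conv_lhs => rw [← map_coe x e]
  rw [AEMeasurable.map_map_of_aemeasurable (by rw [map_coe]; exact h2)
    measurable_subtype_coe.aemeasurable]
  rfl

theorem lint (he : IsChart x e) (f : X → ℝ≥0∞) : ∫⁻ p, f p ∂chartMeas x e =
    ∫⁻ z in e.target, ENNReal.ofReal (jac (fderiv ℝ (x ∘ e.symm) z)) * f (e.symm z) := by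
  rw [cm_eq, (memb e).lintegral_map]
  have h := (MeasurableEmbedding.subtype_coe e.open_target.measurableSet).lintegral_map
    (μ := Measure.comap (↑) (mu0 x e)) fun z => f (e.symm z)
  rw [map_coe] at h
  refine Eq.trans h.symm ?_
  rw [mu0, lintegral_withDensity_eq_lintegral_mul_non_measurable₀ _ (aem_rho he)
    (Eventually.of_forall fun _ => ENNReal.ofReal_lt_top)]
  rfl

theorem int {F : Type} [NormedAddCommGroup F] [NormedSpace ℝ F] (he : IsChart x e) (f : X → F) :
    ∫ p, f p ∂chartMeas x e =
      ∫ z in e.target, jac (fderiv ℝ (x ∘ e.symm) z) • f (e.symm z) := by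
  rw [cm_eq, (memb e).integral_map]
  have h := (MeasurableEmbedding.subtype_coe e.open_target.measurableSet).integral_map
    (μ := Measure.comap (↑) (mu0 x e)) fun z => f (e.symm z)
  rw [map_coe] at h
  refine Eq.trans h.symm ?_
  rw [mu0, integral_withDensity_eq_integral_toReal_smul₀ (aem_rho he)
    (Eventually.of_forall fun _ => ENNReal.ofReal_lt_top)]
  simp only [ENNReal.toReal_ofReal (jac_nonneg _)]

theorem intg {F : Type} [NormedAddCommGroup F] [NormedSpace ℝ F] (he : IsChart x e) (f : X → F) :
    Integrable f (chartMeas x e) ↔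
      IntegrableOn (fun z => jac (fderiv ℝ (x ∘ e.symm) z) • f (e.symm z)) e.target := by
  rw [cm_eq, (memb e).integrable_map_iff]
  have h := (MeasurableEmbedding.subtype_coe e.open_target.measurableSet).integrable_map_iff
    (μ := Measure.comap (↑) (mu0 x e)) (g := fun z => f (e.symm z))
  rw [map_coe] at h
  refine Iff.trans h.symm ?_
  rw [mu0, integrable_withDensity_iff_integrable_smul₀' (aem_rho he)
    (Eventually.of_forall fun _ => ENNReal.ofReal_lt_top)]
  simp only [ENNReal.toReal_ofReal (jac_nonneg _)]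
  rfl

theorem meas_pre (e : OpenPartialHomeomorph X (E (Fin d))) {s : Set X} (hs : MeasurableSet s) :
    MeasurableSet (e.target ∩ e.symm ⁻¹' s) := by
  have h := (MeasurableEmbedding.subtype_coe e.open_target.measurableSet).measurableSet_image.2
    ((memb e).measurable hs)
  convert h using 1
  ext z
  simp only [mem_inter_iff, mem_preimage, mem_image, Subtype.exists, exists_and_right,
    exists_eq_right]
  exact ⟨fun h => ⟨h.1, h.2⟩, fun ⟨h1, h2⟩ => ⟨h1, h2⟩⟩

theorem cm_apply (he : IsChart x e) {s : Set X} (hs : MeasurableSet s) : chartMeas x e s =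
    ∫⁻ z in e.target ∩ e.symm ⁻¹' s, ENNReal.ofReal (jac (fderiv ℝ (x ∘ e.symm) z)) := by
  rw [← lintegral_indicator_one hs, lint he, ← lintegral_indicator (meas_pre e hs),
    ← lintegral_indicator e.open_target.measurableSet]
  congr 1
  funext z
  by_cases h1 : z ∈ e.target <;> by_cases h2 : e.symm z ∈ s <;> simp [indicator, h1, h2]

theorem cm_restrict (he : IsChart x e) (he' : IsChart x e') :
    (chartMeas x e).restrict e'.source = (chartMeas x e').restrict e.source := by
  ext s hs
  have m1 := hs.inter e'.open_source.measurableSet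
  have m2 := hs.inter e.open_source.measurableSet
  rw [Measure.restrict_apply hs, Measure.restrict_apply hs, cm_apply he m1, cm_apply he' m2]
  have hT : ∀ z ∈ e.target ∩ e.symm ⁻¹' (s ∩ e'.source),
      DifferentiableAt ℝ (e' ∘ e.symm) z := fun z hz =>
    (he'.smooth_map (j := id) (e' := e) hz.1 continuousAt_id hz.2.2
      (he.sm.contDiffAt (e.open_target.mem_nhds hz.1))).differentiableAt (by simp)
  have himg : (e' ∘ e.symm) '' (e.target ∩ e.symm ⁻¹' (s ∩ e'.source)) =
      e'.target ∩ e'.symm ⁻¹' (s ∩ e.source) := by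
    ext w
    constructor
    · rintro ⟨z, ⟨h1, h2, h3⟩, rfl⟩
      refine ⟨e'.map_source h3, ?_⟩
      simp only [mem_preimage, comp_apply, e'.left_inv h3]
      exact ⟨h2, e.map_target h1⟩
    · rintro ⟨h1, h2, h3⟩
      refine ⟨e (e'.symm w), ⟨e.map_source h3, ?_⟩, ?_⟩
      · simp only [mem_preimage, e.left_inv h3]
        exact ⟨h2, e'.map_target h1⟩
      · simp only [comp_apply, e.left_inv h3, e'.right_inv h1]
  have hinj : InjOn (e' ∘ e.symm) (e.target ∩ e.symm ⁻¹' (s ∩ e'.source)) :=
    fun z hz w hw h => e.symm.injOn hz.1 hw.1 (e'.injOn hz.2.2 hw.2.2 h)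
  rw [← himg, lintegral_image_eq_lintegral_abs_det_fderiv_mul volume (meas_pre e m1)
    (fun z hz => (hT z hz).hasFDerivAt.hasFDerivWithinAt) hinj]
  refine setLIntegral_congr_fun (meas_pre e m1) fun z hz => ?_
  have h1 : (x ∘ e.symm) =ᶠ[𝓝 z] (x ∘ e'.symm) ∘ (e' ∘ e.symm) := by
    have : ∀ᶠ w in 𝓝 z, e.symm w ∈ e'.source :=
      (e.continuousAt_symm hz.1).preimage_mem_nhds (e'.open_source.mem_nhds hz.2.2)
    exact this.mono fun w hw => by simp only [comp_apply, e'.left_inv hw]
  have h2 : DifferentiableAt ℝ (x ∘ e'.symm) ((e' ∘ e.symm) z) :=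
    (he'.sm.contDiffAt (e'.open_target.mem_nhds (e'.map_source hz.2.2))).differentiableAt (by simp)
  rw [h1.fderiv_eq, fderiv_comp z h2 (hT z hz), jac_comp, mul_comm,
    ENNReal.ofReal_mul (abs_nonneg _)]


variable [SecondCountableTopology X]

theorem ext_cover {μ ν : Measure X} {U : X → Set X} (hU : ∀ p, U p ∈ 𝓝 p)
    (h : ∀ p, μ.restrict (U p) = ν.restrict (U p)) : μ = ν := by
  obtain ⟨T, hT, hc⟩ := TopologicalSpace.countable_cover_nhds hU
  have := hT.to_subtype
  exact Measure.ext_of_iUnion_eq_univ (s := fun p : T => U p) (by rw [← hc, biUnion_eq_iUnion])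
    fun p => h p

theorem glue {μ : Measure X} (h : ∀ p, ∃ e : OpenPartialHomeomorph X (E (Fin d)),
    IsChart x e ∧ p ∈ e.source ∧ μ.restrict e.source = chartMeas x e) (he' : IsChart x e') :
    μ.restrict e'.source = chartMeas x e' := by
  choose c hc hp hμ using h
  refine ext_cover (U := fun p => (c p).source) (fun p => (c p).open_source.mem_nhds (hp p))
    fun p => ?_
  rw [Measure.restrict_comm (c p).open_source.measurableSet, hμ p, cm_restrict (hc p) he']

theorem exists_mu (M : Imm d ι X) :
    ∃ μ : Measure X, ∀ p, μ.restrict (M.ch p).source = chartMeas M.x (M.ch p) := by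
  rcases isEmpty_or_nonempty X with hX | hX
  · exact ⟨0, fun p => hX.elim p⟩
  obtain ⟨T, hT, hc⟩ := TopologicalSpace.countable_cover_nhds
    (f := fun p => (M.ch p).source) fun p => (M.ch p).open_source.mem_nhds (M.mem p)
  have hne : T.Nonempty := by
    by_contra h0
    rw [not_nonempty_iff_eq_empty] at h0
    rw [h0] at hc
    simp only [mem_empty_iff_false, iUnion_of_empty, iUnion_empty] at hc
    exact empty_ne_univ hc
  obtain ⟨c, rfl⟩ := hT.exists_eq_range hne
  rw [biUnion_range] at hc
  set U : ℕ → Set X := fun n => (M.ch (c n)).source with hU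
  have hUm : ∀ n, MeasurableSet (U n) := fun n => (M.ch (c n)).open_source.measurableSet
  have hD := MeasurableSet.disjointed hUm
  refine ⟨Measure.sum fun n => (chartMeas M.x (M.ch (c n))).restrict (disjointed U n), fun p => ?_⟩
  rw [Measure.restrict_sum _ (M.ch p).open_source.measurableSet]
  have : ∀ n, ((chartMeas M.x (M.ch (c n))).restrict (disjointed U n)).restrict (M.ch p).source =
      (chartMeas M.x (M.ch p)).restrict (disjointed U n) := by
    intro n
    rw [Measure.restrict_comm (M.ch p).open_source.measurableSet,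
      cm_restrict (M.isChart _) (M.isChart p), Measure.restrict_restrict (hD n),
      inter_eq_left.2 (disjointed_subset U n)]
  simp only [this]
  rw [← Measure.restrict_iUnion (disjoint_disjointed U) hD, iUnion_disjointed, hc,
    Measure.restrict_univ]

theorem mu_spec (M : Imm d ι X) (p : X) :
    M.mu.restrict (M.ch p).source = chartMeas M.x (M.ch p) := by
  have h := exists_mu M
  have : M.mu = h.choose := by
    unfold Imm.mu
    exact dif_pos h
  rw [this]
  exact h.choose_spec p

theorem mu_restrict {M : Imm d ι X} (he : IsChart M.x e) :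
    M.mu.restrict e.source = chartMeas M.x e :=
  glue (fun p => ⟨M.ch p, M.isChart p, M.mem p, mu_spec M p⟩) he

theorem eq_mu {M : Imm d ι X} {μ : Measure X}
    (h : ∀ p, ∃ e : OpenPartialHomeomorph X (E (Fin d)),
      IsChart M.x e ∧ p ∈ e.source ∧ μ.restrict e.source = chartMeas M.x e) : μ = M.mu :=
  ext_cover (U := fun p => (M.ch p).source) (fun p => (M.ch p).open_source.mem_nhds (M.mem p))
    fun p => by rw [glue h (M.isChart p), mu_spec]

theorem mu_chart {M : Imm d ι X} (he : IsChart M.x e) {s : Set X} (hs : s ⊆ e.source)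
    (hm : MeasurableSet s) :
    M.mu s = ∫⁻ z in e '' s, ENNReal.ofReal (jac (fderiv ℝ (M.x ∘ e.symm) z)) := by
  rw [e.image_eq_target_inter_inv_preimage hs, ← cm_apply he hm, ← mu_restrict he,
    Measure.restrict_apply hm, inter_eq_left.2 hs]

theorem locFin (M : Imm d ι X) : IsLocallyFiniteMeasure M.mu := by
  refine ⟨fun p => ?_⟩
  set e := M.ch p
  have he : IsChart M.x e := M.isChart p
  have hp : e p ∈ e.target := e.map_source (M.mem p)
  obtain ⟨K, hK, hKp, hKt⟩ := exists_compact_subset e.open_target hp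
  have hs : e.source ∩ e ⁻¹' interior K ∈ 𝓝 p :=
    (e.isOpen_inter_preimage isOpen_interior).mem_nhds ⟨M.mem p, hKp⟩
  refine ⟨_, hs, ?_⟩
  rw [mu_chart he inter_subset_left (e.isOpen_inter_preimage isOpen_interior).measurableSet]
  have h1 : e '' (e.source ∩ e ⁻¹' interior K) ⊆ K := by
    rintro _ ⟨q, hq, rfl⟩
    exact interior_subset hq.2
  refine (lintegral_mono_set h1).trans_lt ?_
  exact (((contOn_jac he).mono hKt).integrableOn_compact hK).setLIntegral_lt_top

theorem openPos (M : Imm d ι X) : M.mu.IsOpenPosMeasure := by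
  refine ⟨fun U hU ⟨p, hp⟩ h0 => ?_⟩
  set e := M.ch p
  have he : IsChart M.x e := M.isChart p
  have ho : IsOpen (U ∩ e.source) := hU.inter e.open_source
  have h1 : M.mu (U ∩ e.source) = 0 := measure_mono_null inter_subset_left h0
  have ho' : IsOpen (e '' (U ∩ e.source)) := e.isOpen_image_of_subset_source ho inter_subset_right
  have hsub : e '' (U ∩ e.source) ⊆ e.target := by
    rintro _ ⟨q, hq, rfl⟩
    exact e.map_source hq.2
  rw [mu_chart he inter_subset_right ho.measurableSet,
    lintegral_eq_zero_iff' ((aem_rho he).mono_measure (Measure.restrict_mono hsub le_rfl))] at h1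
  have h2 : ∀ᵐ z ∂(volume.restrict (e '' (U ∩ e.source))), False := by
    filter_upwards [h1, ae_restrict_mem ho'.measurableSet] with z hz hz'
    have := jac_pos (he.inj z (hsub hz'))
    simp only [Pi.zero_apply, ENNReal.ofReal_eq_zero] at hz
    linarith
  rw [eventually_false_iff_eq_bot, ae_eq_bot, Measure.restrict_eq_zero] at h2
  exact (ho'.measure_pos volume ⟨e p, p, ⟨hp, M.mem p⟩, rfl⟩).ne' h2

theorem locallyCompact (M : Imm d ι X) : LocallyCompactSpace X := by
  let _ : ChartedSpace (E (Fin d)) X :=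
    { atlas := range M.ch
      chartAt := M.ch
      mem_chart_source := M.mem
      chart_mem_atlas := fun p => mem_range_self p }
  exact ChartedSpace.locallyCompactSpace (E (Fin d)) X

end Crest.Agent.N222.Ms0

end
end

-- ▼ part N222/F/IBP0
section

/-!
# Row 222, framework: Jacobi formula and the first variation formula in one chart (helper98)
-/

set_option autoImplicit false
set_option linter.unusedSectionVars false
open MeasureTheory Set Filter Topology Function
open scoped ContDiff InnerProductSpace RealInnerProductSpace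

noncomputable section

namespace Crest.Agent.N222.Ib

open ContinuousLinearMap (adjoint)

variable {d : ℕ} {ι : Type} [Fintype ι] [DecidableEq ι]

theorem tr_eq (T : E ι →L[ℝ] E ι) :
    LinearMap.trace ℝ _ (T : E ι →ₗ[ℝ] E ι) = ∑ b, T (ee b) b := by
  rw [LinearMap.trace_eq_matrix_trace ℝ (EuclideanSpace.basisFun ι ℝ).toBasis]
  simp [Matrix.trace, LinearMap.toMatrix_apply]

theorem tr_comm {κ : Type} [Fintype κ] [DecidableEq κ] (A : E κ →L[ℝ] E ι) (B : E ι →L[ℝ] E κ) :
    ∑ b, A (B (ee b)) b = ∑ i, B (A (ee i)) i := by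
  have h := LinearMap.trace_comp_comm' (B : E ι →ₗ[ℝ] E κ) (A : E κ →ₗ[ℝ] E ι)
  rw [← ContinuousLinearMap.toLinearMap_comp, ← ContinuousLinearMap.toLinearMap_comp, tr_eq,
    tr_eq] at h
  exact h

theorem hasDerivAt_det (T : E ι →L[ℝ] E ι) :
    HasDerivAt (fun s : ℝ => (1 + s • T).det) (∑ i, T (ee i) i) 0 := by
  let b := (EuclideanSpace.basisFun ι ℝ).toBasis
  set A := LinearMap.toMatrix b b (T : E ι →ₗ[ℝ] E ι) with hA
  set q : Polynomial ℝ :=
    (Matrix.det (1 + (Polynomial.X : Polynomial ℝ) • A.map Polynomial.C)).divX.divX with hq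
  have h1 : ∀ s : ℝ, (1 + s • T).det = 1 + A.trace * s + q.eval s * s ^ 2 := by
    intro s
    rw [← Matrix.det_one_add_smul, ContinuousLinearMap.det, ← LinearMap.det_toMatrix b]
    congr 1
    have : ((1 + s • T : E ι →L[ℝ] E ι) : E ι →ₗ[ℝ] E ι) = 1 + s • (T : E ι →ₗ[ℝ] E ι) := by
      ext u; simp
    rw [this, map_add, map_smul, LinearMap.toMatrix_one]
  rw [← tr_eq, LinearMap.trace_eq_matrix_trace ℝ b, funext h1]
  have h3 : HasDerivAt (fun s : ℝ => 1 + A.trace * s + q.eval s * s ^ 2)
      (0 + A.trace * 1 + (q.derivative.eval 0 * 0 ^ 2 + q.eval 0 * (2 * 0 ^ 1 * 1))) 0 := by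
    refine ((hasDerivAt_const _ _).add ((hasDerivAt_id' (0 : ℝ)).const_mul _)).add ?_
    refine (q.hasDerivAt 0).mul ?_
    simpa using hasDerivAt_pow 2 (0 : ℝ)
  simpa using h3

/-- **Jacobi formula** -/
theorem fderiv_jac {J : E (Fin d) →L[ℝ] E ι} (hJ : Injective J) (B : E (Fin d) →L[ℝ] E ι) :
    fderiv ℝ jac J B = jac J * ∑ i, adjoint (Lam J) (B (ee i)) i := by
  have hd : ∀ B, HasDerivAt (fun s : ℝ => jac (J + s • B)) (fderiv ℝ jac J B) 0 := fun B =>
    ((contDiffAt_jac hJ).differentiableAt (by simp)).hasFDerivAt.hasLineDerivAt B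
  set A := adjoint (Lam J) ∘L B with hA
  have h1 : fderiv ℝ jac J (J ∘L A) = jac J * ∑ i, A (ee i) i := by
    have e : ∀ s : ℝ, jac (J + s • J ∘L A) = jac J * |(1 + s • A).det| := fun s => by
      rw [← jac_comp]; congr 1; ext v; simp
    have h2 := hasDerivAt_det A
    have h3 : ∀ᶠ s : ℝ in 𝓝 0, 0 < (1 + s • A).det :=
      h2.continuousAt.eventually (lt_mem_nhds (by simp [ContinuousLinearMap.det]))
    refine (hd _).unique ((h2.const_mul (jac J)).congr_of_eventuallyEq (h3.mono fun s hs => ?_))
    simp only [e, abs_of_pos hs]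
  have h2 : fderiv ℝ jac J (B - J ∘L A) = 0 := by
    set N := B - J ∘L A with hN
    have n0 : ∀ v w, ⟪J v, N w⟫ = 0 := fun v w => inner_sub_proj hJ v (B w)
    have n1 : ∀ v w, ⟪N w, J v⟫ = 0 := fun v w => by rw [real_inner_comm, n0]
    have e : ∀ s : ℝ, jac (J + s • (-N)) = jac (J + s • N) := fun s => by
      unfold jac
      congr 2
      refine ContinuousLinearMap.ext fun v => ext_inner_left ℝ fun w => ?_
      simp only [ContinuousLinearMap.comp_apply, ContinuousLinearMap.adjoint_inner_right,
        add_apply, smul_apply,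
        neg_apply, inner_add_left, inner_add_right, inner_smul_left,
        inner_smul_right, inner_neg_left, inner_neg_right, n0, n1]
      simp
    have := (hd (-N)).unique (by simpa only [e] using hd N)
    rw [map_neg] at this
    linarith
  rw [map_sub, h1, sub_eq_zero] at h2
  exact h2

/-- the divergence theorem in the model space -/
theorem int_div {U K : Set (E (Fin d))} (hU : IsOpen U) (hK : IsCompact K) (hKU : K ⊆ U)
    {u : E (Fin d) → E (Fin d)} (hu : ContDiffOn ℝ 1 u U) (h0 : ∀ z ∈ U, z ∉ K → u z = 0) :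
    ∫ z in U, ∑ i, fderiv ℝ u z (ee i) i = 0 := by
  set g := U.indicator u with hg
  have hs : tsupport g ⊆ K := closure_minimal (fun z hz => by
    by_contra h
    by_cases hz' : z ∈ U
    · exact hz (by rw [hg, indicator_of_mem hz', h0 z hz' h])
    · exact hz (indicator_of_notMem hz' _)) hK.isClosed
  have he : ∀ z ∈ U, g =ᶠ[𝓝 z] u := fun z hz =>
    (hU.eventually_mem hz).mono fun y hy => indicator_of_mem hy _
  have hc : HasCompactSupport g := hK.of_isClosed_subset (isClosed_tsupport _) hs
  have hd : ContDiff ℝ 1 g := contDiff_iff_contDiffAt.2 fun z => by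
    by_cases hz : z ∈ U
    · exact (hu.contDiffAt (hU.mem_nhds hz)).congr_of_eventuallyEq (he z hz)
    · exact contDiffAt_const.congr_of_eventuallyEq
        (notMem_tsupport_iff_eventuallyEq.1 fun h => hz (hKU (hs h)))
  have hi : ∀ v, Integrable fun z => fderiv ℝ g z v := fun v =>
    ((hd.continuous_fderiv one_ne_zero).clm_apply continuous_const).integrable_of_hasCompactSupport
      (hc.fderiv_apply ℝ v)
  have h1 : ∀ v, ∫ z, fderiv ℝ g z v = 0 := fun v => by
    simpa using integral_smul_fderiv_eq_neg_fderiv_smul_of_integrable (μ := volume)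
      (f := fun _ => (1 : ℝ)) (g := g) (v := v) (by simp) (by simpa using hi v)
      (by simpa using hd.continuous.integrable_of_hasCompactSupport hc) (by simp)
      fun x _ => hd.differentiable one_ne_zero x
  have h2 : ∀ i, Integrable fun z => fderiv ℝ g z (ee i) i := fun i =>
    (EuclideanSpace.proj (𝕜 := ℝ) i).integrable_comp (hi _)
  have h3 : ∀ i, ∫ z, fderiv ℝ g z (ee i) i = 0 := fun i => by
    have := (EuclideanSpace.proj (𝕜 := ℝ) i).integral_comp_comm (hi (ee i))
    rw [h1, map_zero] at this
    exact this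
  rw [setIntegral_congr_fun (g := fun z => ∑ i, fderiv ℝ g z (ee i) i) hU.measurableSet
    (fun z hz => by simp only [(he z hz).fderiv_eq]),
    setIntegral_eq_integral_of_forall_compl_eq_zero, integral_finsetSum _ fun i _ => h2 i]
  · simp only [h3, Finset.sum_const_zero]
  · intro z hz
    simp [fderiv_of_notMem_tsupport ℝ fun h => hz (hKU (hs h))]

variable {X : Type} [TopologicalSpace X] {M : Imm d ι X}
  {e : OpenPartialHomeomorph X (E (Fin d))}

/-- the coordinate expression of the gradient of `x_a` -/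
def Vf (x : X → E ι) (e : OpenPartialHomeomorph X (E (Fin d))) (a : ι) (z : E (Fin d)) :
    E (Fin d) := adjoint (Lam (fderiv ℝ (x ∘ e.symm) z)) (ee a)

theorem sm_J (he : IsChart M.x e) : ContDiffOn ℝ ∞ (fderiv ℝ (M.x ∘ e.symm)) e.target :=
  he.sm.fderiv_of_isOpen e.open_target (by simp)

theorem sm_Vf (he : IsChart M.x e) (a : ι) : ContDiffOn ℝ ∞ (Vf M.x e a) e.target := by
  have h3 : ContDiffOn ℝ ∞ (fun z => Lam (fderiv ℝ (M.x ∘ e.symm) z)) e.target :=
    fun z hz => (contDiffAt_Lam (he.inj z hz)).comp_contDiffWithinAt z (sm_J he z hz)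
  exact (contDiff_adjoint.comp_contDiffOn h3).clm_apply contDiffOn_const

theorem sm_rho (he : IsChart M.x e) :
    ContDiffOn ℝ ∞ (fun z => jac (fderiv ℝ (M.x ∘ e.symm) z)) e.target :=
  fun z hz => (contDiffAt_jac (he.inj z hz)).comp_contDiffWithinAt z (sm_J he z hz)

theorem D_chart (he : IsChart M.x e) {z : E (Fin d)} (hz : z ∈ e.target) (f : X → ℝ) (a : ι) :
    M.pre.D a f (e.symm z) = fderiv ℝ (f ∘ e.symm) z (Vf M.x e a z) := by
  have h := Imm.td_chart f he (e.map_target hz)
  rw [e.right_inv hz] at h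
  exact congrArg (fun T : E ι →L[ℝ] ℝ => T (ee a)) h

theorem P_chart (he : IsChart M.x e) {z : E (Fin d)} (hz : z ∈ e.target) (a b : ι) :
    M.pre.P a b (e.symm z) = fderiv ℝ (M.x ∘ e.symm) z (Vf M.x e a z) b := by
  have h := Imm.td_chart M.x he (e.map_target hz)
  rw [e.right_inv hz] at h
  rw [Imm.P_apply, Imm.PL, h]
  rfl

/-- the mean curvature in a chart -/
theorem H_chart (he : IsChart M.x e) {z : E (Fin d)} (hz : z ∈ e.target) (a : ι) :
    M.pre.H a (e.symm z) = ∑ i, adjoint (Lam (fderiv ℝ (M.x ∘ e.symm) z))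
      (fderiv ℝ (fderiv ℝ (M.x ∘ e.symm)) z (Vf M.x e a z) (ee i)) i
        + ∑ i, fderiv ℝ (Vf M.x e a) z (ee i) i := by
  have hn := e.open_target.mem_nhds hz
  have hJ := (((sm_J he).contDiffAt hn).differentiableAt (by simp)).hasFDerivAt
  have hV := (((sm_Vf he a).contDiffAt hn).differentiableAt (by simp)).hasFDerivAt
  have hs := (he.sm.contDiffAt hn).isSymmSndFDerivAt
    (by rw [minSmoothness_of_isRCLikeNormedField]; exact WithTop.coe_le_coe.2 le_top)
  have h1 : ∀ b, M.pre.D b (M.pre.P b a) (e.symm z)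
      = fderiv ℝ (fderiv ℝ (M.x ∘ e.symm)) z (Vf M.x e a z) (Vf M.x e b z) b
        + fderiv ℝ (M.x ∘ e.symm) z (fderiv ℝ (Vf M.x e a) z (Vf M.x e b z)) b := fun b => by
    have h2 : M.pre.P a b ∘ e.symm =ᶠ[𝓝 z]
        fun y => EuclideanSpace.proj (𝕜 := ℝ) b (fderiv ℝ (M.x ∘ e.symm) y (Vf M.x e a y)) :=
      (e.open_target.eventually_mem hz).mono fun y hy => P_chart he hy a b
    have h3 := (EuclideanSpace.proj (𝕜 := ℝ) b).hasFDerivAt.comp z (hJ.clm_apply hV)
    rw [D_chart he hz, Imm.P_symm, h2.fderiv_eq, hs.eq (Vf M.x e a z), add_comm]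
    exact congrArg (fun T : E (Fin d) →L[ℝ] ℝ => T (Vf M.x e b z)) h3.fderiv
  have h4 := tr_comm (fderiv ℝ (fderiv ℝ (M.x ∘ e.symm)) z (Vf M.x e a z))
    (adjoint (Lam (fderiv ℝ (M.x ∘ e.symm) z)))
  have h5 := tr_comm (fderiv ℝ (M.x ∘ e.symm) z)
    (fderiv ℝ (Vf M.x e a) z ∘L adjoint (Lam (fderiv ℝ (M.x ∘ e.symm) z)))
  simp only [ContinuousLinearMap.comp_apply, adj_Lam_apply (he.inj z hz)] at h5
  rw [← h4, ← h5, ← Finset.sum_add_distrib, Pre.H, Pre.lap, Finset.sum_apply]
  exact Finset.sum_congr rfl fun b _ => h1 b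

theorem c1_chart (he : IsChart M.x e) {f : X → ℝ} (h1 : ∀ p, M.DiffAt f p)
    (h2 : ∀ a, Continuous (M.pre.D a f)) : ContDiffOn ℝ 1 (f ∘ e.symm) e.target := by
  refine (contDiffOn_succ_iff_fderiv_of_isOpen (n := 0) e.open_target).2
    ⟨fun z hz => ?_, by simp, contDiffOn_zero.2 (continuousOn_clm_apply.2 fun v => ?_)⟩
  · have := (Imm.diffAt_chart he (e.map_target hz)).1 (h1 _)
    rw [e.right_inv hz] at this
    exact this.differentiableWithinAt
  · have h3 : ContinuousOn (fun z => ∑ a, fderiv ℝ (M.x ∘ e.symm) z v a * M.pre.D a f (e.symm z))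
        e.target := continuousOn_finsetSum _ fun a _ =>
      ((EuclideanSpace.proj (𝕜 := ℝ) a).continuous.comp_continuousOn
        ((sm_J he).continuousOn.clm_apply continuousOn_const)).mul
        ((h2 a).comp_continuousOn e.continuousOn_symm)
    refine h3.congr fun z hz => ?_
    have := Imm.fderiv_chart f he (e.map_target hz)
    rw [e.right_inv hz] at this
    simp only [this, ContinuousLinearMap.comp_apply, Imm.td_apply]

/-- first variation for functions supported in a chart -/
theorem local_ibp [MeasurableSpace X] [BorelSpace X] [SecondCountableTopology X]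
    (he : IsChart M.x e) {f : X → ℝ} (h1 : ∀ p, M.DiffAt f p)
    (h2 : ∀ a, Continuous (M.pre.D a f)) (hc : HasCompactSupport f) (hs : tsupport f ⊆ e.source)
    (a : ι) : ∫ p, (M.pre.D a f p + M.pre.H a p * f p) ∂M.mu = 0 := by
  have hf := c1_chart he h1 h2
  have hr := (sm_rho he).of_le (show (1 : WithTop ℕ∞) ≤ ∞ by simp)
  have hV := (sm_Vf he a).of_le (show (1 : WithTop ℕ∞) ≤ ∞ by simp)
  have key := int_div e.open_target (hc.isCompact.image_of_continuousOn (e.continuousOn.mono hs))
    (image_subset_iff.2 fun p hp => e.map_source (hs hp)) ((hf.mul hr).smul hV) fun z hz h => by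
      have : f (e.symm z) = 0 :=
        image_eq_zero_of_notMem_tsupport fun h' => h ⟨_, h', e.right_inv hz⟩
      simp [this]
  rw [← setIntegral_eq_integral_of_forall_compl_eq_zero (s := e.source), Ms0.mu_restrict he,
    Ms0.int he, ← key]
  · refine setIntegral_congr_fun e.open_target.measurableSet fun z hz => ?_
    have hn := e.open_target.mem_nhds hz
    have df := ((hf.contDiffAt hn).differentiableAt one_ne_zero).hasFDerivAt
    have dV := ((hV.contDiffAt hn).differentiableAt one_ne_zero).hasFDerivAt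
    have dJ := (((sm_J he).contDiffAt hn).differentiableAt (by simp)).hasFDerivAt
    have dr := ((contDiffAt_jac (he.inj z hz)).differentiableAt (by simp)).hasFDerivAt.comp z dJ
    have d1 := ((df.mul dr).smul dV).fderiv
    have e1 : ∀ L : E (Fin d) →L[ℝ] ℝ, ∑ i, L (ee i) * Vf M.x e a z i = L (Vf M.x e a z) :=
      fun L => by
        conv_rhs => rw [eq_sum_ee (Vf M.x e a z)]
        simp only [map_sum, map_smul, smul_eq_mul, mul_comm]
    beta_reduce
    erw [d1]
    simp only [add_apply, smul_apply,
      ContinuousLinearMap.smulRight_apply, PiLp.add_apply, PiLp.smul_apply, smul_eq_mul,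
      Finset.sum_add_distrib, ← Finset.mul_sum, add_mul, mul_assoc, e1]
    rw [D_chart he hz, H_chart he hz, ContinuousLinearMap.comp_apply, fderiv_jac (he.inj z hz)]
    simp only [Pi.mul_apply, comp_apply]
    ring
  · intro p hp
    have h : p ∉ tsupport f := fun h => hp (hs h)
    rw [Imm.D_eq_zero_of_notMem h, image_eq_zero_of_notMem_tsupport h, mul_zero, add_zero]

/-- bump functions in a chart -/
theorem exists_chi [T2Space X] (M : Imm d ι X) (p : X) : ∃ χ : X → ℝ, M.Sm χ ∧
    tsupport χ ⊆ (M.ch p).source ∧ ∀ᶠ q in 𝓝 p, χ q = 1 := by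
  set e := M.ch p with he
  have hp : p ∈ e.source := M.mem p
  obtain ⟨r, hr, hb⟩ := Metric.nhds_basis_closedBall.mem_iff.1
    (e.open_target.mem_nhds (e.map_source hp))
  let b : ContDiffBump (e p) := ⟨r / 2, r, by positivity, by linarith⟩
  have hK : IsCompact (e.symm '' Metric.closedBall (e p) r) :=
    (isCompact_closedBall _ _).image_of_continuousOn (e.continuousOn_symm.mono hb)
  have hKs : e.symm '' Metric.closedBall (e p) r ⊆ e.source :=
    image_subset_iff.2 fun z hz => e.map_target (hb hz)
  have hs : tsupport (e.source.indicator fun q => b (e q)) ⊆ e.symm '' Metric.closedBall (e p) r :=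
    closure_minimal (fun q hq => by
      have h1 : q ∈ e.source := by
        by_contra h; exact hq (indicator_of_notMem h _)
      refine ⟨e q, ?_, e.left_inv h1⟩
      rw [mem_support, indicator_of_mem h1] at hq
      have : e q ∈ support b := hq
      rw [b.support_eq] at this
      exact Metric.ball_subset_closedBall this) hK.isClosed
  refine ⟨e.source.indicator fun q => b (e q), Imm.sm_of_charts fun q => ?_, hs.trans hKs, ?_⟩
  · by_cases hq : q ∈ e.source
    · refine ⟨e, M.isChart p, hq, b.contDiffAt.congr_of_eventuallyEq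
        ((e.open_target.eventually_mem (e.map_source hq)).mono fun z hz => ?_)⟩
      simp only [comp_apply, indicator_of_mem (e.map_target hz), e.right_inv hz]
    · exact ⟨M.ch q, M.isChart q, M.mem q, contDiffAt_const.congr_of_eventuallyEq
        (symm_eventuallyEq (M.mem q)
          (notMem_tsupport_iff_eventuallyEq.1 fun h => hq (hKs (hs h))))⟩
  · filter_upwards [e.open_source.mem_nhds hp,
      (e.continuousAt hp).eventually b.eventuallyEq_one] with q h1 h2
    rw [indicator_of_mem h1, h2, Pi.one_apply]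

end Crest.Agent.N222.Ib

end
end

-- ▼ part N222/F/Meas

/-!
# Row 222, framework: the area measure, integration by parts
(SKELETON: fill in place, statements frozen; add lemmas freely)
-/

set_option autoImplicit false
set_option linter.unusedSectionVars false
open MeasureTheory Set Filter Topology Function
open scoped ContDiff InnerProductSpace RealInnerProductSpace ENNReal

noncomputable section

namespace Crest.Agent.N222.Imm

variable {d : ℕ} {ι : Type} [Fintype ι] {X : Type} [TopologicalSpace X]
  [T2Space X] [SecondCountableTopology X] [MeasurableSpace X] [BorelSpace X]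
  {M : Imm d ι X} {e : OpenPartialHomeomorph X (E (Fin d))} {p : X}

/-! ### the measure in charts -/


theorem mu_restrict (he : IsChart M.x e) : M.mu.restrict e.source = chartMeas M.x e := by
  exact Ms0.mu_restrict he

/-- uniqueness -/
theorem eq_mu {μ : Measure X} (h : ∀ p, ∃ e : OpenPartialHomeomorph X (E (Fin d)),
    IsChart M.x e ∧ p ∈ e.source ∧ μ.restrict e.source = chartMeas M.x e) : μ = M.mu := by
  exact Ms0.eq_mu h

theorem setLIntegral_chart (he : IsChart M.x e) (f : X → ℝ≥0∞) :
    ∫⁻ p in e.source, f p ∂M.mu =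
      ∫⁻ z in e.target, ENNReal.ofReal (jac (fderiv ℝ (M.x ∘ e.symm) z)) * f (e.symm z) := by
  rw [mu_restrict he, Ms0.lint he]

theorem setIntegral_chart {F : Type} [NormedAddCommGroup F] [NormedSpace ℝ F]
    (he : IsChart M.x e) (f : X → F) : ∫ p in e.source, f p ∂M.mu =
      ∫ z in e.target, jac (fderiv ℝ (M.x ∘ e.symm) z) • f (e.symm z) := by
  rw [mu_restrict he, Ms0.int he]

theorem integral_chart {F : Type} [NormedAddCommGroup F] [NormedSpace ℝ F]
    (he : IsChart M.x e) {f : X → F} (hf : support f ⊆ e.source) : ∫ p, f p ∂M.mu =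
      ∫ z in e.target, jac (fderiv ℝ (M.x ∘ e.symm) z) • f (e.symm z) := by
  rw [← setIntegral_chart he, setIntegral_eq_integral_of_forall_compl_eq_zero]
  intro p hp
  by_contra h
  exact hp (hf h)

theorem integrableOn_chart {F : Type} [NormedAddCommGroup F] [NormedSpace ℝ F]
    (he : IsChart M.x e) (f : X → F) : IntegrableOn f e.source M.mu ↔
      IntegrableOn (fun z => jac (fderiv ℝ (M.x ∘ e.symm) z) • f (e.symm z)) e.target := by
  rw [IntegrableOn, mu_restrict he, Ms0.intg he]

theorem mu_chart (he : IsChart M.x e) {s : Set X} (hs : s ⊆ e.source) (hm : MeasurableSet s) :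
    M.mu s = ∫⁻ z in e '' s, ENNReal.ofReal (jac (fderiv ℝ (M.x ∘ e.symm) z)) := by
  exact Ms0.mu_chart he hs hm

theorem continuousOn_jac (he : IsChart M.x e) :
    ContinuousOn (fun z => jac (fderiv ℝ (M.x ∘ e.symm) z)) e.target := by
  exact Ms0.contOn_jac he

include M in
theorem locallyCompact : LocallyCompactSpace X := by
  exact Ms0.locallyCompact M

instance (M : Imm d ι X) : IsLocallyFiniteMeasure M.mu := by
  exact Ms0.locFin M

instance (M : Imm d ι X) : IsFiniteMeasureOnCompacts M.mu := inferInstance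

instance (M : Imm d ι X) : M.mu.IsOpenPosMeasure := by
  exact Ms0.openPos M

/-! ### integration by parts -/

variable [DecidableEq ι] {f g F : X → ℝ} {Y : ι → X → ℝ}

/-- continuously differentiable functions -/
structure C1 (M : Imm d ι X) (f : X → ℝ) : Prop where
  diff : ∀ p, M.DiffAt f p
  cont : ∀ a, Continuous (M.pre.D a f)

theorem Sm.c1 (hf : M.Sm f) : M.C1 f := ⟨hf.diffAt, fun a => (hf.D a).continuous⟩

theorem C1.continuous (hf : M.C1 f) : Continuous f := by
  refine continuous_iff_continuousAt.2 fun p => ?_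
  refine ((hf.diff p).continuousAt.comp ((M.ch p).continuousAt (M.mem p))).congr ?_
  filter_upwards [(M.ch p).open_source.mem_nhds (M.mem p)] with q hq
  simp only [comp_apply, (M.ch p).left_inv hq]

theorem C1.mul (hf : M.C1 f) (hg : M.C1 g) : M.C1 fun p => f p * g p := by
  refine ⟨fun p => DifferentiableAt.mul (hf.diff p) (hg.diff p), fun a => ?_⟩
  rw [show M.pre.D a (fun p => f p * g p) = _ from funext fun p => D_mul (hf.diff p) (hg.diff p) a]
  exact (hf.continuous.mul (hg.cont a)).add ((hf.cont a).mul hg.continuous)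

theorem C1.comp (hf : M.C1 f) {φ : ℝ → ℝ} (hφ : ContDiff ℝ 1 φ) : M.C1 fun p => φ (f p) := by
  have hd := hφ.differentiable one_ne_zero
  refine ⟨fun p => (hf.diff p).comp (hd _), fun a => ?_⟩
  rw [show M.pre.D a (fun p => φ (f p)) = _ from
    funext fun p => D_comp (hf.diff p) (hd _).hasDerivAt a]
  exact ((hφ.continuous_deriv le_rfl).comp hf.continuous).mul (hf.cont a)

/-- `C¹` functions of a smooth map -/
theorem Sm.c1_comp {Z : Type} [NormedAddCommGroup Z] [NormedSpace ℝ Z] {y : X → Z} (hy : M.Sm y)
    {φ : Z → ℝ} (hφ : ContDiff ℝ 1 φ) : M.C1 fun p => φ (y p) := by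
  have hd := hφ.differentiable one_ne_zero
  refine ⟨fun p => (hy.diffAt p).comp (hd _), fun a => ?_⟩
  have e : M.pre.D a (fun p => φ (y p)) = fun p => fderiv ℝ φ (y p) (M.td y p (ee a)) :=
    funext fun p => congrArg (fun T : E ι →L[ℝ] ℝ => T (ee a)) (td_comp (hy.diffAt p) (hd _))
  rw [e]
  exact ((hφ.continuous_fderiv one_ne_zero).comp hy.continuous).clm_apply
    (hy.td.continuous.clm_apply continuous_const)

theorem C1.integrable_D (hf : M.C1 f) (hc : HasCompactSupport f) (a : ι) :
    Integrable (M.pre.D a f) M.mu :=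
  (hf.cont a).integrable_of_hasCompactSupport
    (HasCompactSupport.intro hc fun _ hp => D_eq_zero_of_notMem hp a)

theorem C1.integrable_H (hf : M.C1 f) (hc : HasCompactSupport f) (a : ι) :
    Integrable (fun p => M.pre.H a p * f p) M.mu :=
  ((M.sm_H a).continuous.mul hf.continuous).integrable_of_hasCompactSupport hc.mul_left

theorem integral_D_add (hf : M.C1 f) (hc : HasCompactSupport f) (a : ι) :
    ∫ p, (M.pre.D a f p + M.pre.H a p * f p) ∂M.mu = 0 := by
  classical
  choose χ h1 h2 h3 using Ib.exists_chi M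
  obtain ⟨t, -, ht⟩ := hc.isCompact.elim_nhds_subcover (fun p => interior {q | χ p q = 1})
    fun p _ => interior_mem_nhds.2 (h3 p)
  induction t using Finset.induction_on generalizing f with
  | empty =>
    have : f = 0 := tsupport_eq_empty_iff.1 (by simpa using ht)
    simp [this, Pi.zero_def, D_const]
  | insert p t _ ih =>
    have g1 := hf.mul (h1 p).c1
    have g2 := hf.mul ((sm_const 1).sub (h1 p)).c1
    have c1 : HasCompactSupport fun q => f q * χ p q := hc.mul_right
    have c2 : HasCompactSupport fun q => f q * (1 - χ p q) := hc.mul_right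
    have e1 := Ib.local_ibp (M.isChart p) g1.diff g1.cont c1
      ((tsupport_mul_subset_right).trans (h2 p)) a
    have e2 := ih g2 c2 fun q hq => by
      have := ht (tsupport_mul_subset_left hq)
      rw [Finset.set_biUnion_insert] at this
      refine this.resolve_left fun h => notMem_tsupport_iff_eventuallyEq.2 ?_ hq
      filter_upwards [mem_interior_iff_mem_nhds.1 h] with y hy
      rw [hy, sub_self, mul_zero, Pi.zero_apply]
    have i1 : Integrable (fun q => M.pre.D a (fun q => f q * χ p q) q
      + M.pre.H a q * (f q * χ p q)) M.mu := (g1.integrable_D c1 a).add (g1.integrable_H c1 a)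
    have i2 : Integrable (fun q => M.pre.D a (fun q => f q * (1 - χ p q)) q
      + M.pre.H a q * (f q * (1 - χ p q))) M.mu := (g2.integrable_D c2 a).add (g2.integrable_H c2 a)
    have e3 := integral_add i1 i2
    rw [e1, e2, add_zero] at e3
    rw [← e3]
    refine integral_congr_ae (ae_of_all _ fun q => ?_)
    have e4 := D_add (g1.diff q) (g2.diff q) a
    rw [show (fun q => f q * χ p q + f q * (1 - χ p q)) = f from funext fun q => by ring] at e4
    simp only [e4]
    ring

/-- **First variation**: `∫ D_a f = - ∫ H_a f`. -/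
theorem integral_D (hf : M.C1 f) (hc : HasCompactSupport f) (a : ι) :
    ∫ p, M.pre.D a f p ∂M.mu = -∫ p, M.pre.H a p * f p ∂M.mu := by
  rw [eq_neg_iff_add_eq_zero, ← integral_add (hf.integrable_D hc a) (hf.integrable_H hc a)]
  exact integral_D_add hf hc a

/-- divergence theorem for arbitrary fields -/
theorem integral_dv (hY : ∀ a, M.C1 (Y a)) (hc : ∀ a, HasCompactSupport (Y a)) :
    ∫ p, M.pre.dv Y p ∂M.mu = -∫ p, ∑ a, M.pre.H a p * Y a p ∂M.mu := by
  simp only [dv_apply]
  rw [integral_finsetSum _ fun a _ => (hY a).integrable_D (hc a) a,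
    integral_finsetSum _ fun a _ => (hY a).integrable_H (hc a) a, ← Finset.sum_neg_distrib]
  exact Finset.sum_congr rfl fun a _ => integral_D (hY a) (hc a) a

/-- divergence theorem for tangential fields -/
theorem integral_dv_tan (hY : ∀ a, M.C1 (Y a)) (hc : ∀ a, HasCompactSupport (Y a))
    (ht : M.pre.Tan Y) : ∫ p, M.pre.dv Y p ∂M.mu = 0 := by
  simp only [integral_dv hY hc, H_tan ht, integral_zero, neg_zero]

theorem C1.continuous_dv (hY : ∀ a, M.C1 (Y a)) : Continuous (M.pre.dv Y) := by
  rw [show M.pre.dv Y = _ from funext (dv_apply Y)]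
  exact continuous_finsetSum _ fun a _ => (hY a).cont a

theorem C1.continuous_dir (hY : ∀ a, M.C1 (Y a)) (hf : M.C1 f) : Continuous (M.pre.dir Y f) := by
  rw [show M.pre.dir Y f = _ from funext (dir_apply Y f)]
  exact continuous_finsetSum _ fun a _ => (hY a).continuous.mul (hf.cont a)

theorem dir_eq_zero_of_notMem (Y : ι → X → ℝ) (hp : p ∉ tsupport f) : M.pre.dir Y f p = 0 := by
  simp only [dir_apply, D_eq_zero_of_notMem hp, mul_zero, Finset.sum_const_zero]

theorem integral_mul_dv (hf : M.C1 f) (hc : HasCompactSupport f) (hY : ∀ a, M.C1 (Y a))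
    (ht : M.pre.Tan Y) : ∫ p, f p * M.pre.dv Y p ∂M.mu = -∫ p, M.pre.dir Y f p ∂M.mu := by
  have h := integral_dv_tan (Y := fun a p => f p * Y a p) (fun a => hf.mul (hY a))
    (fun a => hc.mul_right) fun a => funext fun p => by
      have := congrFun (ht a) p
      simp only [Finset.sum_apply, Pi.mul_apply] at this ⊢
      simp only [← this, Finset.mul_sum, mul_left_comm]
  have i1 : Integrable (fun p => f p * M.pre.dv Y p) M.mu :=
    (hf.continuous.mul (C1.continuous_dv hY)).integrable_of_hasCompactSupport hc.mul_right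
  have i2 : Integrable (fun p => M.pre.dir Y f p) M.mu :=
    (C1.continuous_dir hY hf).integrable_of_hasCompactSupport
      (HasCompactSupport.intro hc fun _ hp => dir_eq_zero_of_notMem Y hp)
  rw [eq_neg_iff_add_eq_zero, ← integral_add i1 i2, ← h]
  refine integral_congr_ae (ae_of_all _ fun p => ?_)
  simp only [dv_apply, dir_apply, D_mul (hf.diff p) ((hY _).diff p), Finset.sum_add_distrib,
    Finset.mul_sum, mul_comm]

theorem dir_D (f g : X → ℝ) (p : X) :
    M.pre.dir (fun a => M.pre.D a g) f p = M.pre.gam f g p := by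
  simp only [dir_apply, gam_apply, mul_comm]

theorem integral_mul_lap (hf : M.C1 f) (hc : HasCompactSupport f) (hg : M.Sm g) :
    ∫ p, f p * M.pre.lap g p ∂M.mu = -∫ p, M.pre.gam f g p ∂M.mu := by
  have h := integral_mul_dv hf hc (fun a => (hg.D a).c1) (tan_D g)
  simp only [dir_D] at h
  exact h

theorem integral_mul_dvF (hf : M.C1 f) (hc : HasCompactSupport f) (hY : ∀ a, M.C1 (Y a))
    (ht : M.pre.Tan Y) (hF : M.Sm F) : ∫ p, f p * M.pre.dvF F Y p * Real.exp (F p) ∂M.mu =
      -∫ p, M.pre.dir Y f p * Real.exp (F p) ∂M.mu := by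
  have h := integral_mul_dv (hf.mul hF.exp.c1) hc.mul_right hY ht
  have ce := hF.exp.continuous
  have i1 : Integrable (fun p => f p * Real.exp (F p) * M.pre.dv Y p) M.mu :=
    ((hf.continuous.mul ce).mul (C1.continuous_dv hY)).integrable_of_hasCompactSupport
      hc.mul_right.mul_right
  have i2 : Integrable (fun p => f p * (Real.exp (F p) * M.pre.dir Y F p)) M.mu :=
    (hf.continuous.mul (ce.mul (C1.continuous_dir hY hF.c1))).integrable_of_hasCompactSupport
      hc.mul_right
  have i3 : Integrable (fun p => M.pre.dir Y f p * Real.exp (F p)) M.mu :=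
    ((C1.continuous_dir hY hf).mul ce).integrable_of_hasCompactSupport
      (HasCompactSupport.intro hc fun _ hp => by
        rw [Pi.mul_apply, dir_eq_zero_of_notMem Y hp, zero_mul])
  have e1 : ∀ p, M.pre.dir Y (fun p => f p * Real.exp (F p)) p
      = f p * (Real.exp (F p) * M.pre.dir Y F p) + M.pre.dir Y f p * Real.exp (F p) := fun p => by
    simp only [dir_apply, D_mul (hf.diff p) (hF.exp.diffAt p),
      D_comp (hF.diffAt p) (Real.hasDerivAt_exp _), Finset.mul_sum, Finset.sum_mul,
      ← Finset.sum_add_distrib]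
    exact Finset.sum_congr rfl fun a _ => by ring
  have e2 : ∀ p, f p * M.pre.dvF F Y p * Real.exp (F p) = f p * Real.exp (F p) * M.pre.dv Y p
      + f p * (Real.exp (F p) * M.pre.dir Y F p) := fun p => by
    simp only [Pre.dvF, Pi.add_apply]
    ring
  simp only [e1, e2] at h ⊢
  rw [integral_add i2 i3] at h
  rw [integral_add i1 i2, h]
  ring

theorem integral_mul_lapF (hf : M.C1 f) (hc : HasCompactSupport f) (hg : M.Sm g) (hF : M.Sm F) :
    ∫ p, f p * M.pre.lapF F g p * Real.exp (F p) ∂M.mu =
      -∫ p, M.pre.gam f g p * Real.exp (F p) ∂M.mu := by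
  have h := integral_mul_dvF hf hc (fun a => (hg.D a).c1) (tan_D g) hF
  simp only [Pre.dvF, Pi.add_apply, dir_D] at h
  exact h

/-- continuous functions that vanish off the support of a test function are integrable -/
theorem integrable_of_support {z : X → ℝ} (hz : HasCompactSupport z) (hf : Continuous f)
    (h : ∀ p, p ∉ tsupport z → f p = 0) : Integrable f M.mu :=
  hf.integrable_of_hasCompactSupport (HasCompactSupport.intro hz h)

end Crest.Agent.N222.Imm

end
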