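import Crest.Agent.N222.F.Hess
import Crest.Agent.N222.D.Defs
import Crest.Agent.N222.D.EgrA

/-!
# Row 222, framework: dictionary to coordinate metrics (`CoordMetric`, `Bo84`, `RAtl`)
(statements by helper10, proofs by helper48)
-/

set_option autoImplicit false
set_option linter.unusedSectionVars false
open MeasureTheory Set Filter Topology Function
open scoped ContDiff InnerProductSpace RealInnerProductSpace
open Crest.GeometryTopology.CoordMetric Crest.Agent.R202.Tens Crest.Agent.R247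
  Crest.Agent.R273.RMan_798

noncomputable section

namespace Crest.Agent.N222

variable {d : ℕ} {ι : Type} [Fintype ι] {X : Type} [TopologicalSpace X]

/-- the Gram matrix of a parametrisation -/
def gram (φ : E (Fin d) → E ι) : MetricField d := fun z =>
  Matrix.of fun i j => ⟪fderiv ℝ φ z (ee i), fderiv ℝ φ z (ee j)⟫

theorem jac_eq_sqrt_det (φ : E (Fin d) → E ι) (z : E (Fin d)) :
    jac (fderiv ℝ φ z) = √(gram φ z).det := by
  rw [jac, ContinuousLinearMap.det,
    ← LinearMap.det_toMatrix (EuclideanSpace.basisFun (Fin d) ℝ).toBasis]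
  congr 2
  ext i j
  have h := ContinuousLinearMap.adjoint_inner_right (fderiv ℝ φ z) (ee i) (fderiv ℝ φ z (ee j))
  rw [gram, Matrix.of_apply, ← h]
  simp [LinearMap.toMatrix_apply, EuclideanSpace.inner_single_left]

theorem gram_sum (φ : E (Fin d) → E ι) (z v w : E (Fin d)) :
    ∑ i, ∑ j, gram φ z i j * v i * w j = ⟪fderiv ℝ φ z v, fderiv ℝ φ z w⟫ := by
  conv_rhs => rw [eq_sum_ee v, eq_sum_ee w]
  rw [map_sum, map_sum, sum_inner]
  refine Finset.sum_congr rfl fun i _ => ?_
  rw [inner_sum]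
  refine Finset.sum_congr rfl fun j _ => ?_
  rw [map_smul, map_smul, real_inner_smul_left, real_inner_smul_right, gram, Matrix.of_apply]
  ring

theorem gram_bil (φ : E (Fin d) → E ι) (z v w : E (Fin d)) :
    bil (gram φ z) v w = ⟪fderiv ℝ φ z v, fderiv ℝ φ z w⟫ := by
  rw [bil_apply, gram_sum]

theorem gram_posDef {φ : E (Fin d) → E ι} {z : E (Fin d)} (hz : Injective (fderiv ℝ φ z)) :
    (gram φ z).PosDef := by
  refine Matrix.PosDef.of_dotProduct_mulVec_pos ?_ ?_
  · ext i j
    simp only [Matrix.conjTranspose_apply, star_trivial, gram, Matrix.of_apply]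
    exact real_inner_comm _ _
  · intro v hv
    have h1 : star v ⬝ᵥ (gram φ z).mulVec v
        = ⟪fderiv ℝ φ z (WithLp.toLp 2 v), fderiv ℝ φ z (WithLp.toLp 2 v)⟫ := by
      rw [← gram_sum]
      simp only [dotProduct, Matrix.mulVec, star_trivial, Finset.mul_sum]
      refine Finset.sum_congr rfl fun i _ => Finset.sum_congr rfl fun j _ => ?_
      ring
    rw [h1]
    refine real_inner_self_pos.2 fun h => hv ?_
    have h2 : (WithLp.toLp 2 v : E (Fin d)) = 0 := hz (by rw [h, map_zero])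
    exact (WithLp.toLp_eq_zero 2).1 h2

theorem IsChart.isRiemannianOn {x : X → E ι} {e : OpenPartialHomeomorph X (E (Fin d))}
    (he : IsChart x e) : IsRiemannianOn (gram (x ∘ e.symm)) e.target where
  isOpen := e.open_target
  contDiffOn i j := by
    have h1 : ContDiffOn ℝ ∞ (fderiv ℝ (x ∘ e.symm)) e.target :=
      he.sm.fderiv_of_isOpen e.open_target (by simp)
    exact (h1.clm_apply contDiffOn_const).inner ℝ (h1.clm_apply contDiffOn_const)
  posDef z hz := gram_posDef (he.inj z hz)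

/-- the vector valued second fundamental form in coordinates -/
def sff (φ : E (Fin d) → E ι) (z v w : E (Fin d)) : E ι :=
  fderiv ℝ (fderiv ℝ φ) z v w - fderiv ℝ φ z (Gam (gram φ) z v w)

section Chart

variable {x : X → E ι} {e : OpenPartialHomeomorph X (E (Fin d))} {z : E (Fin d)}

theorem IsChart.cda (he : IsChart x e) (hz : z ∈ e.target) :
    ContDiffAt ℝ ∞ (x ∘ e.symm) z := he.sm.contDiffAt (e.open_target.mem_nhds hz)

theorem IsChart.diff_fderiv (he : IsChart x e) (hz : z ∈ e.target) :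
    DifferentiableAt ℝ (fderiv ℝ (x ∘ e.symm)) z :=
  ((he.cda hz).fderiv_right (m := ∞) (by simp)).differentiableAt (by simp)

/-- the second fundamental form is normal -/
theorem IsChart.sff_normal (he : IsChart x e) (hz : z ∈ e.target) (v w u : E (Fin d)) :
    ⟪sff (x ∘ e.symm) z v w, fderiv ℝ (x ∘ e.symm) z u⟫ = 0 :=
  D.egr_lc (G := Gf (gram (x ∘ e.symm))) ((he.cda hz).of_le Bo84.two_le_infty)
    (Eventually.of_forall fun z v w => gram_bil _ z v w)
    (Bo84.differentiableAt_Gf he.isRiemannianOn hz) (Bo84.isLC he.isRiemannianOn hz) v w u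


/-- the tangential part of the second derivative -/
theorem IsChart.adj_Lam_fderiv2 (he : IsChart x e) (hz : z ∈ e.target) (v w : E (Fin d)) :
    ContinuousLinearMap.adjoint (Lam (fderiv ℝ (x ∘ e.symm) z))
      (fderiv ℝ (fderiv ℝ (x ∘ e.symm)) z v w) = Gam (gram (x ∘ e.symm)) z v w :=
  adj_Lam_eq_of (he.inj z hz) fun u => by rw [real_inner_comm]; exact he.sff_normal hz v w u

/-- the Gauss equation -/
theorem IsChart.gauss (he : IsChart x e) (hz : z ∈ e.target) (s t u v : E (Fin d)) :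
    ⟪fderiv ℝ (x ∘ e.symm) z (curv (Gam (gram (x ∘ e.symm))) z s t u),
      fderiv ℝ (x ∘ e.symm) z v⟫ =
      ⟪sff (x ∘ e.symm) z s v, sff (x ∘ e.symm) z t u⟫ -
        ⟪sff (x ∘ e.symm) z t v, sff (x ∘ e.symm) z s u⟫ :=
  D.egr_gauss ((he.cda hz).of_le Bo84.three_le_infty)
    ((Bo84.contDiffAt_Gam he.isRiemannianOn hz).differentiableAt (by simp))
    (by filter_upwards [e.open_target.mem_nhds hz] with y hy using he.sff_normal hy) s t u v

end Chart

section LA

variable [DecidableEq ι]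

/-- `tr (W L) = tr (L W)` -/
theorem sum_comp_comm (L : E ι →L[ℝ] E (Fin d)) (W : E (Fin d) →L[ℝ] E ι) :
    ∑ a, W (L (ee a)) a = ∑ i, L (W (ee i)) i := by
  have h1 : ∀ a, W (L (ee a)) a = ∑ i, L (ee a) i * W (ee i) a := fun a => by
    conv_lhs => rw [eq_sum_ee (L (ee a)), map_sum]
    simp
  have h2 : ∀ i, L (W (ee i)) i = ∑ a, W (ee i) a * L (ee a) i := fun i => by
    conv_lhs => rw [eq_sum_ee (W (ee i)), map_sum]
    simp
  simp only [h1, h2]
  rw [Finset.sum_comm]
  exact Finset.sum_congr rfl fun i _ => Finset.sum_congr rfl fun a _ => mul_comm _ _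

theorem inner_J_adj_Lam {J : E (Fin d) →L[ℝ] E ι} (hJ : Injective J) (v : E (Fin d)) (w : E ι) :
    ⟪J v, J (ContinuousLinearMap.adjoint (Lam J) w)⟫ = ⟪J v, w⟫ := by
  have h := inner_sub_proj hJ v w
  rw [inner_sub_right] at h
  linarith

/-- `Λᵀ Λ = G⁻¹` -/
theorem inverse_gram {φ : E (Fin d) → E ι} {z : E (Fin d)} (hz : Injective (fderiv ℝ φ z))
    (i j : Fin d) : inverseField (gram φ) z i j =
      ∑ b, ContinuousLinearMap.adjoint (Lam (fderiv ℝ φ z)) (ee b) i *
        ContinuousLinearMap.adjoint (Lam (fderiv ℝ φ z)) (ee b) j := by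
  set L := ContinuousLinearMap.adjoint (Lam (fderiv ℝ φ z)) with hL
  have h : gram φ z * Matrix.of (fun i j => ∑ b, L (ee b) i * L (ee b) j) = 1 := by
    ext i j
    have h1 : ∀ b, ∑ k, gram φ z i k * L (ee b) k = fderiv ℝ φ z (ee i) b := fun b => by
      have h2 := gram_sum φ z (ee i) (L (ee b))
      rw [hL, inner_J_adj_Lam hz, ← hL, Finset.sum_eq_single i] at h2
      · simpa [EuclideanSpace.inner_single_right] using h2
      · intro c _ hc
        simp [hc]
      · simp
    have h3 : L (fderiv ℝ φ z (ee i)) j = ∑ b, fderiv ℝ φ z (ee i) b * L (ee b) j := by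
      conv_lhs => rw [eq_sum_ee (fderiv ℝ φ z (ee i)), map_sum]
      simp
    rw [hL, adj_Lam_apply hz, ← hL] at h3
    rw [Matrix.mul_apply]
    simp only [Matrix.of_apply, Finset.mul_sum]
    rw [Finset.sum_comm]
    simp only [← mul_assoc, ← Finset.sum_mul, h1]
    rw [← h3, Matrix.one_apply]
    simp [eq_comm]
  rw [inverseField, Matrix.inv_eq_right_inv h, Matrix.of_apply]

end LA

/-- the curvature as a linear map of its first argument -/
def curvL (Γ : E (Fin d) → E (Fin d) →L[ℝ] E (Fin d) →L[ℝ] E (Fin d)) (z t u : E (Fin d)) :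
    E (Fin d) →L[ℝ] E (Fin d) :=
  ((fderiv ℝ Γ z).flip t).flip u - (fderiv ℝ Γ z t).flip u + (Γ z).flip (Γ z t u) -
    Γ z t ∘L (Γ z).flip u

theorem curvL_apply (Γ : E (Fin d) → E (Fin d) →L[ℝ] E (Fin d) →L[ℝ] E (Fin d))
    (z t u s : E (Fin d)) : curvL Γ z t u s = curv Γ z s t u := rfl

namespace Imm

variable [DecidableEq ι] {M : Imm d ι X} {e : OpenPartialHomeomorph X (E (Fin d))} {p : X}

theorem grad_coord' (he : IsChart M.x e) (hp : p ∈ e.source) (f : X → ℝ) : M.grad f p =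
    fderiv ℝ (M.x ∘ e.symm) (e p) (Bo84.grad (gram (M.x ∘ e.symm)) (f ∘ e.symm) (e p)) := by
  refine ext_inner_right ℝ fun w => ?_
  rw [← td_eq_inner, td_chart f he hp, ContinuousLinearMap.comp_apply,
    ← Bo84.bil_grad he.isRiemannianOn (e.map_source hp), gram_bil,
    inner_J_adj_Lam (he.inj _ (e.map_source hp))]

theorem gam_coord (he : IsChart M.x e) (hp : p ∈ e.source) (f g : X → ℝ) :
    M.pre.gam f g p = Bo84.gam (gram (M.x ∘ e.symm)) (f ∘ e.symm) (g ∘ e.symm) (e p) := by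
  rw [gam_eq_inner, grad_coord' he hp, grad_coord' he hp,
    Bo84.gam_eq_bil he.isRiemannianOn (e.map_source hp), gram_bil]

omit [DecidableEq ι] in
theorem fderiv_coord (he : IsChart M.x e) {z : E (Fin d)} (hz : z ∈ e.target) (a : ι)
    (v : E (Fin d)) : fderiv ℝ (fun y => M.x (e.symm y) a) z v = fderiv ℝ (M.x ∘ e.symm) z v a := by
  have h := ((EuclideanSpace.proj (𝕜 := ℝ) a).hasFDerivAt.comp z
    ((he.cda hz).differentiableAt (by simp)).hasFDerivAt).fderiv
  exact congrArg (fun T : E (Fin d) →L[ℝ] ℝ => T v) h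


/-- the gradient is the push-forward of the coordinate gradient -/
theorem grad_coord (he : IsChart M.x e) (hp : p ∈ e.source) (f : X → ℝ) : M.grad f p =
    fderiv ℝ (M.x ∘ e.symm) (e p) (Bo84.grad (gram (M.x ∘ e.symm)) (f ∘ e.symm) (e p)) :=
  grad_coord' he hp f

/-- divergence of a tangential field given by its coordinates -/
theorem dv_coord (he : IsChart M.x e) (hp : p ∈ e.source) {Y : ι → X → ℝ}
    {V : E (Fin d) → E (Fin d)} (hV : DifferentiableAt ℝ V (e p))
    (hY : ∀ᶠ q in 𝓝 p, ∀ a, Y a q = fderiv ℝ (M.x ∘ e.symm) (e q) (V (e q)) a) :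
    M.pre.dv Y p = Bo84.divg (gram (M.x ∘ e.symm)) V (e p) := by
  have hz := e.map_source hp
  have hd := he.diff_fderiv hz
  set W := fderiv ℝ (fun y => fderiv ℝ (M.x ∘ e.symm) y (V y)) (e p) with hW
  have h1 : ∀ a, M.pre.D a (Y a) p =
      W (ContinuousLinearMap.adjoint (Lam (fderiv ℝ (M.x ∘ e.symm) (e p))) (ee a)) a := by
    intro a
    have h2 : Y a ∘ e.symm =ᶠ[𝓝 (e p)] fun y => fderiv ℝ (M.x ∘ e.symm) y (V y) a := by
      have h3 : Y a =ᶠ[𝓝 p] fun q => fderiv ℝ (M.x ∘ e.symm) (e q) (V (e q)) a :=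
        hY.mono fun q hq => hq a
      filter_upwards [symm_eventuallyEq hp h3, e.open_target.mem_nhds hz] with y hy hy'
      rw [hy, comp_apply, e.right_inv hy']
    have h4 := ((EuclideanSpace.proj (𝕜 := ℝ) a).hasFDerivAt.comp (e p)
      (hd.clm_apply hV).hasFDerivAt).fderiv
    change M.td (Y a) p (ee a) = _
    rw [td_chart _ he hp, ContinuousLinearMap.comp_apply, h2.fderiv_eq]
    exact congrArg (fun T : E (Fin d) →L[ℝ] ℝ => T _) h4
  rw [dv_apply, Bo84.divg_eq_trL he.isRiemannianOn hz hV, Bo84.trL_apply]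
  simp only [h1]
  rw [sum_comp_comm]
  refine Finset.sum_congr rfl fun i _ => ?_
  rw [hW, fderiv_clm_apply hd hV]
  simp only [add_apply, ContinuousLinearMap.comp_apply, ContinuousLinearMap.flip_apply, map_add,
    adj_Lam_apply (he.inj _ hz), he.adj_Lam_fderiv2 hz, Bo84.cov_apply]

theorem lap_coord (he : IsChart M.x e) (hp : p ∈ e.source) {f : X → ℝ}
    (hf : ContDiffAt ℝ 2 (f ∘ e.symm) (e p)) :
    M.pre.lap f p = laplaceBeltrami (gram (M.x ∘ e.symm)) (f ∘ e.symm) (e p) := by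
  rw [← Bo84.divg_grad, ← dv_coord (Y := fun a => M.pre.D a f) he hp
    (Bo84.differentiableAt_grad he.isRiemannianOn (e.map_source hp) hf)]
  · rfl
  · filter_upwards [e.open_source.mem_nhds hp] with q hq a
    rw [← grad_coord he hq]
    rfl

theorem hess_coord (he : IsChart M.x e) (hp : p ∈ e.source) {f : X → ℝ} (hf : M.Sm f)
    (v w : E (Fin d)) : ∑ a, ∑ b, M.pre.hess f a b p *
      (fderiv ℝ (M.x ∘ e.symm) (e p) v a * fderiv ℝ (M.x ∘ e.symm) (e p) w b) =
    Bo84.hess (gram (M.x ∘ e.symm)) (f ∘ e.symm) (e p) v w := by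
  rw [Bo84.hess_apply, hess_chart hf he hp, td_chart f he hp, ContinuousLinearMap.comp_apply,
    he.adj_Lam_fderiv2 (e.map_source hp), add_sub_cancel_right]

theorem sum_P_D (f : X → ℝ) (a : ι) (p : X) :
    ∑ b, M.pre.P a b p * M.pre.D b f p = M.pre.D a f p := by
  simpa using congrFun (tan_D (M := M) f a) p

/-- the Hessian is tangential in both arguments -/
theorem hess_tan (f : X → ℝ) (a b : ι) (p : X) :
    ∑ a', ∑ b', M.pre.hess f a' b' p * (M.pre.P a a' p * M.pre.P b b' p) = M.pre.hess f a b p := by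
  have h1 : ∀ a', ∑ b', M.pre.hess f a' b' p * (M.pre.P a a' p * M.pre.P b b' p) =
      ∑ c, M.pre.P b c p * (M.pre.P a a' p * M.pre.D a' (M.pre.D c f) p) := fun a' => by
    simp only [hess_apply, Finset.sum_mul]
    rw [Finset.sum_comm]
    refine Finset.sum_congr rfl fun c _ => ?_
    rw [← M.PP b c p, Finset.sum_mul]
    exact Finset.sum_congr rfl fun b' _ => by ring
  simp only [h1]
  rw [Finset.sum_comm, hess_apply]
  refine Finset.sum_congr rfl fun c _ => ?_
  rw [← Finset.mul_sum, sum_P_D]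

/-- components of the Hessian -/
theorem hess_eq_coord (he : IsChart M.x e) (hp : p ∈ e.source) {f : X → ℝ} (hf : M.Sm f)
    (a b : ι) : M.pre.hess f a b p = Bo84.hess (gram (M.x ∘ e.symm)) (f ∘ e.symm) (e p)
      (ContinuousLinearMap.adjoint (Lam (fderiv ℝ (M.x ∘ e.symm) (e p))) (ee a))
      (ContinuousLinearMap.adjoint (Lam (fderiv ℝ (M.x ∘ e.symm) (e p))) (ee b)) := by
  have h1 : ∀ a a', fderiv ℝ (M.x ∘ e.symm) (e p)
      (ContinuousLinearMap.adjoint (Lam (fderiv ℝ (M.x ∘ e.symm) (e p))) (ee a)) a' =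
      M.pre.P a a' p := fun a a' => by
    rw [P_apply, PL, td_chart M.x he hp, ContinuousLinearMap.comp_apply]
  rw [← hess_coord he hp hf]
  simp only [h1]
  exact (hess_tan f a b p).symm

/-- components of the second fundamental form -/
theorem II_coord (he : IsChart M.x e) (hp : p ∈ e.source) (a b c : ι) :
    M.pre.II a b c p = sff (M.x ∘ e.symm) (e p)
      (ContinuousLinearMap.adjoint (Lam (fderiv ℝ (M.x ∘ e.symm) (e p))) (ee a))
      (ContinuousLinearMap.adjoint (Lam (fderiv ℝ (M.x ∘ e.symm) (e p))) (ee b)) c := by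
  have hz := e.map_source hp
  have h0 : M.pre.x c ∘ e.symm = fun y => M.x (e.symm y) c := rfl
  rw [Pre.II, hess_eq_coord (f := M.pre.x c) he hp (M.sm_coord c), Bo84.hess_apply, h0,
    fderiv_coord he hz, sff, PiLp.sub_apply]
  congr 1
  generalize ContinuousLinearMap.adjoint (Lam (fderiv ℝ (M.x ∘ e.symm) (e p))) (ee a) = v
  generalize ContinuousLinearMap.adjoint (Lam (fderiv ℝ (M.x ∘ e.symm) (e p))) (ee b) = w
  have hd := he.diff_fderiv hz
  have hs : ContDiffAt ℝ ∞ (fun y => M.x (e.symm y) c) (e p) :=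
    (EuclideanSpace.proj (𝕜 := ℝ) c).contDiff.contDiffAt.comp (e p) (he.cda hz)
  have hd' : DifferentiableAt ℝ (fderiv ℝ fun y => M.x (e.symm y) c) (e p) :=
    (hs.fderiv_right (m := ∞) (by simp)).differentiableAt (by simp)
  have h1 : (fun y => fderiv ℝ (fun y => M.x (e.symm y) c) y w) =ᶠ[𝓝 (e p)]
      fun y => fderiv ℝ (M.x ∘ e.symm) y w c := by
    filter_upwards [e.open_target.mem_nhds hz] with y hy using fderiv_coord he hy c w
  have h4 := ((EuclideanSpace.proj (𝕜 := ℝ) c).hasFDerivAt.comp (e p)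
    (hd.clm_apply (differentiableAt_const w)).hasFDerivAt).fderiv
  rw [← D.egr_d1 hd', h1.fderiv_eq, ← D.egr_d1 hd]
  exact congrArg (fun T : E (Fin d) →L[ℝ] ℝ => T v) h4

/-- the Riemann tensor -/
theorem Rm_coord (he : IsChart M.x e) (hp : p ∈ e.source) (a b c k : ι) :
    M.pre.Rm a b c k p = fderiv ℝ (M.x ∘ e.symm) (e p) (curv (Gam (gram (M.x ∘ e.symm))) (e p)
      (ContinuousLinearMap.adjoint (Lam (fderiv ℝ (M.x ∘ e.symm) (e p))) (ee a))
      (ContinuousLinearMap.adjoint (Lam (fderiv ℝ (M.x ∘ e.symm) (e p))) (ee b))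
      (ContinuousLinearMap.adjoint (Lam (fderiv ℝ (M.x ∘ e.symm) (e p))) (ee c))) k := by
  have hz := e.map_source hp
  have h := he.gauss hz (ContinuousLinearMap.adjoint (Lam (fderiv ℝ (M.x ∘ e.symm) (e p))) (ee a))
    (ContinuousLinearMap.adjoint (Lam (fderiv ℝ (M.x ∘ e.symm) (e p))) (ee b))
    (ContinuousLinearMap.adjoint (Lam (fderiv ℝ (M.x ∘ e.symm) (e p))) (ee c))
    (ContinuousLinearMap.adjoint (Lam (fderiv ℝ (M.x ∘ e.symm) (e p))) (ee k))
  rw [inner_J_adj_Lam (he.inj _ hz), EuclideanSpace.inner_single_right, PiLp.inner_apply,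
    PiLp.inner_apply, ← Finset.sum_sub_distrib] at h
  simp only [one_mul, conj_trivial, RCLike.inner_apply] at h
  rw [h]
  simp only [Pre.Rm, Finset.sum_apply, Pi.sub_apply, Pi.mul_apply, II_coord he hp]
  exact Finset.sum_congr rfl fun l _ => by ring

/-- the Ricci tensor -/
theorem Ric_coord (he : IsChart M.x e) (hp : p ∈ e.source) (b c : ι) :
    M.pre.Ric b c p = ∑ i, ∑ j, ricci (gram (M.x ∘ e.symm)) (e p) i j *
      ContinuousLinearMap.adjoint (Lam (fderiv ℝ (M.x ∘ e.symm) (e p))) (ee c) i *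
      ContinuousLinearMap.adjoint (Lam (fderiv ℝ (M.x ∘ e.symm) (e p))) (ee b) j := by
  have hz := e.map_source hp
  rw [ricci_form he.isRiemannianOn hz]
  simp only [Pre.Ric, Finset.sum_apply, Rm_coord he hp, ← curvL_apply]
  have h := sum_comp_comm (ContinuousLinearMap.adjoint (Lam (fderiv ℝ (M.x ∘ e.symm) (e p))))
    (fderiv ℝ (M.x ∘ e.symm) (e p) ∘L curvL (Gam (gram (M.x ∘ e.symm))) (e p)
      (ContinuousLinearMap.adjoint (Lam (fderiv ℝ (M.x ∘ e.symm) (e p))) (ee b))
      (ContinuousLinearMap.adjoint (Lam (fderiv ℝ (M.x ∘ e.symm) (e p))) (ee c)))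
  simpa only [ContinuousLinearMap.comp_apply, adj_Lam_apply (he.inj _ hz)] using h

/-- theorema egregium -/
theorem scal_coord (he : IsChart M.x e) (hp : p ∈ e.source) :
    M.pre.scal p = D.scal (gram (M.x ∘ e.symm)) (e p) := by
  simp only [Pre.scal, Finset.sum_apply, Ric_coord he hp, D.scal,
    inverse_gram (he.inj _ (e.map_source hp)), Finset.sum_mul]
  rw [Finset.sum_comm]
  refine Finset.sum_congr rfl fun i _ => ?_
  rw [Finset.sum_comm]
  exact Finset.sum_congr rfl fun j _ => Finset.sum_congr rfl fun b _ => by ring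


end Imm

end Crest.Agent.N222

end
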